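import Crest.Agent.N334.I.Defs

/-!
# Row 334, S0519 (helper21): mixtures of product laws, labelled ensembles
-/

set_option autoImplicit false

open MeasureTheory Finset
open scoped ENNReal

namespace Crest.Agent.N334.I

/-! ### densities and lifts -/

theorem lintegral_dens {f : ℝ → ℝ} (hf : Measurable f) {F : ℝ → ℝ≥0∞} (hF : Measurable F) :
    ∫⁻ a, F a ∂dens f = ∫⁻ a, ENNReal.ofReal (f a) * F a :=
  lintegral_withDensity_eq_lintegral_mul _ hf.ennreal_ofReal hF

theorem dens_univ (f : ℝ → ℝ) : dens f Set.univ = ∫⁻ a, ENNReal.ofReal (f a) := by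
  rw [dens, withDensity_apply _ MeasurableSet.univ, Measure.restrict_univ]

theorem isProb_dens {f : ℝ → ℝ} (hf : ∫⁻ a, ENNReal.ofReal (f a) = 1) :
    IsProbabilityMeasure (dens f) := ⟨by rw [dens_univ, hf]⟩

theorem dens_add {f g : ℝ → ℝ} (hf : Measurable f) (hf0 : ∀ a, 0 ≤ f a) (hg0 : ∀ a, 0 ≤ g a) :
    dens (fun a => f a + g a) = dens f + dens g := by
  unfold dens
  rw [← withDensity_add_left hf.ennreal_ofReal]
  congr 1
  funext a
  exact ENNReal.ofReal_add (hf0 a) (hg0 a)

theorem dens_smul {f : ℝ → ℝ} (hf : Measurable f) {c : ℝ} (hc : 0 ≤ c) :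
    dens (fun a => c * f a) = ENNReal.ofReal c • dens f := by
  unfold dens
  rw [← withDensity_smul _ hf.ennreal_ofReal]
  congr 1
  funext a
  exact ENNReal.ofReal_mul hc

theorem dens_mono {f g : ℝ → ℝ} (h : ∀ a, f a ≤ g a) : dens f ≤ dens g :=
  withDensity_mono (Filter.Eventually.of_forall fun a => ENNReal.ofReal_le_ofReal (h a))

theorem ae_dens {f : ℝ → ℝ} (hf : Measurable f) {p : ℝ → Prop} (h : ∀ a, 0 < f a → p a) :
    ∀ᵐ a ∂dens f, p a := by
  unfold dens
  rw [ae_withDensity_iff hf.ennreal_ofReal]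
  exact Filter.Eventually.of_forall fun a ha => h a (by
    by_contra h'
    exact ha (ENNReal.ofReal_eq_zero.2 (not_lt.1 h')))

@[simp] theorem pt_re (g a : ℝ) : (pt g a).re = a := by simp [pt]
@[simp] theorem pt_im (g a : ℝ) : (pt g a).im = -g := by simp [pt]

@[fun_prop] theorem measurable_pt (g : ℝ) : Measurable (pt g) := by unfold pt; fun_prop

theorem continuous_pt (g : ℝ) : Continuous (pt g) := by unfold pt; fun_prop

theorem lintegral_lift (g : ℝ) (ν : Measure ℝ) {F : ℂ → ℝ≥0∞} (hF : Measurable F) :
    ∫⁻ w, F w ∂lift g ν = ∫⁻ a, F (pt g a) ∂ν := lintegral_map hF (measurable_pt g)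

theorem lift_univ (g : ℝ) (ν : Measure ℝ) : lift g ν Set.univ = ν Set.univ := by
  rw [lift, Measure.map_apply (measurable_pt g) MeasurableSet.univ, Set.preimage_univ]

instance (g : ℝ) (ν : Measure ℝ) [IsProbabilityMeasure ν] : IsProbabilityMeasure (lift g ν) :=
  ⟨by rw [lift_univ, measure_univ]⟩

instance (g : ℝ) (ν : Measure ℝ) [IsFiniteMeasure ν] : IsFiniteMeasure (lift g ν) :=
  ⟨by rw [lift_univ]; exact measure_lt_top _ _⟩

theorem lift_add (g : ℝ) (ν ν' : Measure ℝ) : lift g (ν + ν') = lift g ν + lift g ν' :=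
  Measure.map_add _ _ (measurable_pt g)

theorem lift_smul (g : ℝ) (c : ℝ≥0∞) (ν : Measure ℝ) : lift g (c • ν) = c • lift g ν :=
  Measure.map_smul _ _ _

theorem lift_mono (g : ℝ) {ν ν' : Measure ℝ} (h : ν ≤ ν') : lift g ν ≤ lift g ν' :=
  Measure.map_mono h (measurable_pt g)

theorem map_re_lift (g : ℝ) (ν : Measure ℝ) : (lift g ν).map Complex.re = ν := by
  rw [lift, Measure.map_map Complex.measurable_re (measurable_pt g)]
  have : Complex.re ∘ pt g = id := funext fun a => pt_re g a
  rw [this, Measure.map_id]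

theorem ae_lift {g : ℝ} {ν : Measure ℝ} {p : ℂ → Prop} (hp : MeasurableSet {w | p w})
    (h : ∀ᵐ a ∂ν, p (pt g a)) : ∀ᵐ w ∂lift g ν, p w :=
  (ae_map_iff (measurable_pt g).aemeasurable hp).2 h

theorem ae_lift_im (g : ℝ) (ν : Measure ℝ) : ∀ᵐ w ∂lift g ν, w.im = -g :=
  ae_lift (measurableSet_eq_fun Complex.measurable_im measurable_const)
    (Filter.Eventually.of_forall fun a => pt_im g a)

theorem ud_le (h a : ℝ) (hh : 0 < h) : ud h a ≤ 1 / (2 * h) := by
  unfold ud; split_ifs
  · exact le_rfl
  · positivity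

theorem abs_le_of_ud_pos {h a : ℝ} (ha : 0 < ud h a) : |a| ≤ h := by
  by_contra h'
  simp [ud, h'] at ha

theorem isProb_unif {h : ℝ} (hh : 0 < h) : IsProbabilityMeasure (dens (ud h)) :=
  isProb_dens (lintegral_ud hh)

/-! ### one site -/

namespace Site

variable {h : ℝ} (s : Site h)

include s in
theorem ud_nonneg' (a : ℝ) : 0 ≤ ud h a := by
  have := s.le a
  have := mul_nonneg s.z_nonneg (s.nonneg a)
  linarith

theorem one_sub_pos : 0 < 1 - s.z := by have := s.z_le; linarith

theorem half_le_rd (a : ℝ) : ud h a / 2 ≤ s.rd a := by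
  rw [rd, le_div_iff₀ s.one_sub_pos]
  have := s.le a
  have := mul_nonneg s.z_nonneg (s.ud_nonneg' a)
  nlinarith

theorem rd_le (a : ℝ) : s.rd a ≤ 2 * ud h a := by
  rw [rd, div_le_iff₀ s.one_sub_pos]
  have := mul_nonneg s.z_nonneg (s.nonneg a)
  have := mul_nonneg (sub_nonneg.2 s.z_le) (s.ud_nonneg' a)
  nlinarith

theorem rd_nonneg (a : ℝ) : 0 ≤ s.rd a :=
  le_trans (by have := s.ud_nonneg' a; linarith) (s.half_le_rd a)

theorem measurable_rd : Measurable s.rd := by
  have := s.meas
  have := measurable_ud h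
  unfold rd; fun_prop

theorem measurable_den (l : Bool) : Measurable (s.den l) := by
  cases l
  exacts [s.measurable_rd, s.meas]

theorem den_nonneg (l : Bool) (a : ℝ) : 0 ≤ s.den l a := by
  cases l
  exacts [s.rd_nonneg a, s.nonneg a]

theorem pr_nonneg (l : Bool) : 0 ≤ s.pr l := by
  cases l
  exacts [s.one_sub_pos.le, s.z_nonneg]

theorem pr_le_one (l : Bool) : s.pr l ≤ 1 := by
  cases l
  · have := s.z_nonneg; simp only [pr]; simp [this]
  · have := s.z_le; simp only [pr, if_true]; linarith

theorem sum_pr : ∑ l, s.pr l = 1 := by simp [pr]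

theorem mix : ENNReal.ofReal s.z • dens s.wd + ENNReal.ofReal (1 - s.z) • dens s.rd =
    dens (ud h) := by
  rw [← dens_smul s.meas s.z_nonneg, ← dens_smul s.measurable_rd s.one_sub_pos.le,
    ← dens_add (s.meas.const_mul _) (fun a => mul_nonneg s.z_nonneg (s.nonneg a))
      (fun a => mul_nonneg s.one_sub_pos.le (s.rd_nonneg a))]
  congr 1
  funext a
  rw [rd, mul_div_cancel₀ _ s.one_sub_pos.ne']
  ring

theorem mix' : ∑ l, ENNReal.ofReal (s.pr l) • dens (s.den l) = dens (ud h) := by
  rw [Fintype.sum_bool]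
  exact s.mix

instance : IsProbabilityMeasure (dens s.wd) := isProb_dens s.mass

theorem isProb_rd (hh : 0 < h) : IsProbabilityMeasure (dens s.rd) := by
  have := isProb_unif hh
  have h1 := congrArg (fun m : Measure ℝ => m Set.univ) s.mix
  simp only [Measure.add_apply, Measure.smul_apply, smul_eq_mul, measure_univ, mul_one] at h1
  have h2 : ENNReal.ofReal s.z + ENNReal.ofReal (1 - s.z) = 1 := by
    rw [← ENNReal.ofReal_add s.z_nonneg s.one_sub_pos.le]; simp
  rw [← h2, ENNReal.add_right_inj ENNReal.ofReal_ne_top] at h1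
  refine ⟨?_⟩
  have h3 : ENNReal.ofReal (1 - s.z) ≠ 0 := (ENNReal.ofReal_pos.2 s.one_sub_pos).ne'
  exact (ENNReal.mul_right_inj h3 ENNReal.ofReal_ne_top).1 (by rw [h1, mul_one])

theorem isProb_den (hh : 0 < h) (l : Bool) : IsProbabilityMeasure (dens (s.den l)) := by
  cases l
  · exact s.isProb_rd hh
  · exact isProb_dens s.mass

theorem triv_den (hh : 0 < h) (l : Bool) : (Site.triv hh).den l = ud h := by
  cases l
  · funext a; simp [den, rd, triv]
  · rfl

end Site

/-! ### product laws -/

section Pi

variable {V X : Type*} [Fintype V] [DecidableEq V] [MeasurableSpace X]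

/-- a product of finite mixtures is a mixture of products -/
theorem pi_mix {κ : Type*} [Fintype κ] (p : V → κ → ℝ≥0∞) (hp : ∀ x k, p x k ≠ ∞)
    (ν : V → κ → Measure X) [∀ x k, IsFiniteMeasure (ν x k)] :
    Measure.pi (fun x => ∑ k, p x k • ν x k) =
      ∑ l : V → κ, (∏ x, p x (l x)) • Measure.pi fun x => ν x (l x) := by
  have : ∀ x, IsFiniteMeasure (∑ k, p x k • ν x k) := fun x => ⟨by
    rw [Measure.finsetSum_apply]
    exact ENNReal.sum_lt_top.2 fun k _ => by
      rw [Measure.smul_apply, smul_eq_mul]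
      exact ENNReal.mul_lt_top (hp x k).lt_top (measure_lt_top _ _)⟩
  refine Measure.pi_eq fun s _ => ?_
  simp only [Measure.finsetSum_apply, Measure.smul_apply, smul_eq_mul, Measure.pi_pi]
  rw [Finset.prod_univ_sum, Fintype.piFinset_univ]
  exact Finset.sum_congr rfl fun l _ => Finset.prod_mul_distrib.symm

/-- resampling one coordinate -/
theorem measurePreserving_update_pi (μ : V → Measure X) [∀ x, IsProbabilityMeasure (μ x)]
    (x : V) (ν : Measure X) [IsFiniteMeasure ν] :
    MeasurePreserving (fun p : (V → X) × X => Function.update p.1 x p.2)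
      ((Measure.pi μ).prod ν) (Measure.pi (Function.update μ x ν)) := by
  have hm : Measurable fun p : (V → X) × X => Function.update p.1 x p.2 := measurable_update'
  have : ∀ y, SigmaFinite (Function.update μ x ν y) := fun y => by
    rcases eq_or_ne y x with rfl | hy
    · rw [Function.update_self]; infer_instance
    · rw [Function.update_of_ne hy]; infer_instance
  refine ⟨hm, (Measure.pi_eq fun t ht => ?_).symm⟩
  rw [Measure.map_apply hm (MeasurableSet.univ_pi ht)]
  have h1 : (fun p : (V → X) × X => Function.update p.1 x p.2) ⁻¹' Set.pi Set.univ t =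
      Set.pi Set.univ (Function.update t x Set.univ) ×ˢ t x := by
    ext p
    simp only [Set.mem_preimage, Set.mem_pi, Set.mem_univ, true_imp_iff, Set.mem_prod]
    refine ⟨fun h => ⟨fun i => ?_, by simpa using h x⟩, fun h i => ?_⟩
    · rcases eq_or_ne i x with rfl | hi
      · simp
      · simpa [hi] using h i
    · rcases eq_or_ne i x with rfl | hi
      · simpa using h.2
      · simpa [hi] using h.1 i
  rw [h1, Measure.prod_prod, Measure.pi_pi, ← Finset.prod_erase_mul _ _ (mem_univ x),
    ← Finset.prod_erase_mul _ _ (mem_univ x)]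
  simp only [Function.update_self, measure_univ, mul_one]
  congr 1
  refine Finset.prod_congr rfl fun i hi => ?_
  rw [Function.update_of_ne (ne_of_mem_erase hi), Function.update_of_ne (ne_of_mem_erase hi)]

theorem lintegral_pi_update (μ : V → Measure X) [∀ x, IsProbabilityMeasure (μ x)]
    (x : V) (ν : Measure X) [IsFiniteMeasure ν] {F : (V → X) → ℝ≥0∞} (hF : Measurable F) :
    ∫⁻ w, F w ∂Measure.pi (Function.update μ x ν) =
      ∫⁻ w, ∫⁻ t, F (Function.update w x t) ∂ν ∂Measure.pi μ := by
  rw [← (measurePreserving_update_pi μ x ν).lintegral_comp hF]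
  exact lintegral_prod _ (hF.comp measurable_update').aemeasurable

theorem lintegral_pi_resample (μ : V → Measure X) [∀ x, IsProbabilityMeasure (μ x)]
    (x : V) {F : (V → X) → ℝ≥0∞} (hF : Measurable F) :
    ∫⁻ w, F w ∂Measure.pi μ = ∫⁻ w, ∫⁻ t, F (Function.update w x t) ∂μ x ∂Measure.pi μ := by
  rw [← lintegral_pi_update μ x (μ x) hF, Function.update_eq_self]

theorem integral_pi_update {E : Type*} [NormedAddCommGroup E] [NormedSpace ℝ E]
    (μ : V → Measure X) [∀ x, IsProbabilityMeasure (μ x)]
    (x : V) (ν : Measure X) [IsFiniteMeasure ν] {F : (V → X) → E}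
    (hF : Integrable F (Measure.pi (Function.update μ x ν))) :
    ∫ w, F w ∂Measure.pi (Function.update μ x ν) =
      ∫ w, ∫ t, F (Function.update w x t) ∂ν ∂Measure.pi μ := by
  have hm := measurePreserving_update_pi μ x ν
  have h1 := hm.integrable_comp_of_integrable hF
  rw [← hm.map_eq, integral_map hm.measurable.aemeasurable
    (by rw [hm.map_eq]; exact hF.aestronglyMeasurable)]
  exact integral_prod _ h1

/-- the product law is additive in each factor -/
theorem pi_update_add (μ : V → Measure X) [∀ x, IsProbabilityMeasure (μ x)]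
    (x : V) (ν ν' : Measure X) [IsFiniteMeasure ν] [IsFiniteMeasure ν'] :
    Measure.pi (Function.update μ x (ν + ν')) =
      Measure.pi (Function.update μ x ν) + Measure.pi (Function.update μ x ν') := by
  rw [← (measurePreserving_update_pi μ x ν).map_eq, ← (measurePreserving_update_pi μ x ν').map_eq,
    ← (measurePreserving_update_pi μ x (ν + ν')).map_eq, Measure.prod_add,
    Measure.map_add _ _ measurable_update']

theorem pi_update_smul (μ : V → Measure X) [∀ x, IsProbabilityMeasure (μ x)]
    (x : V) {c : ℝ≥0∞} (hc : c ≠ ∞) (ν : Measure X) [IsFiniteMeasure ν] :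
    Measure.pi (Function.update μ x (c • ν)) = c • Measure.pi (Function.update μ x ν) := by
  have : IsFiniteMeasure (c • ν) := ⟨by
    rw [Measure.smul_apply, smul_eq_mul]
    exact ENNReal.mul_lt_top hc.lt_top (measure_lt_top _ _)⟩
  rw [← (measurePreserving_update_pi μ x ν).map_eq,
    ← (measurePreserving_update_pi μ x (c • ν)).map_eq, Measure.prod_smul_right, Measure.map_smul]

end Pi

/-! ### labelled ensembles -/

namespace Lab

variable {V : Type} [Fintype V] [DecidableEq V] {h : ℝ} (L : Lab V h)

omit [DecidableEq V] in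
theorem P_nonneg (l : V → Bool) : 0 ≤ L.P l :=
  Finset.prod_nonneg fun x _ => (L.site x).pr_nonneg _

theorem sum_P : ∑ l, L.P l = 1 := by
  have := Finset.prod_univ_sum (fun _ : V => (univ : Finset Bool)) fun x b => (L.site x).pr b
  rw [Fintype.piFinset_univ] at this
  simp only [P]
  rw [← this]
  exact Finset.prod_eq_one fun x _ => (L.site x).sum_pr

theorem sum_ofReal_P : ∑ l, ENNReal.ofReal (L.P l) = 1 := by
  rw [← ENNReal.ofReal_sum_of_nonneg fun l _ => L.P_nonneg l, L.sum_P, ENNReal.ofReal_one]

omit [Fintype V] [DecidableEq V] in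
theorem law_of_act (η : ℝ) (μ : V → Measure ℂ) {l : V → Bool} {x : V} (hx : L.act l x) :
    L.law η μ l x = μ x := if_pos hx

omit [Fintype V] [DecidableEq V] in
theorem law_of_not_act (η : ℝ) (μ : V → Measure ℂ) {l : V → Bool} {x : V} (hx : ¬L.act l x) :
    L.law η μ l x = lift η (dens ((L.site x).den (l x))) := if_neg hx

omit [Fintype V] [DecidableEq V] in
theorem isProb_law (hh : 0 < h) (η : ℝ) (μ : V → Measure ℂ) [∀ x, IsProbabilityMeasure (μ x)]
    (l : V → Bool) (x : V) : IsProbabilityMeasure (L.law η μ l x) := by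
  unfold law
  split_ifs
  · infer_instance
  · have := (L.site x).isProb_den hh (l x); infer_instance

omit [Fintype V] in
/-- changing the active law at an active site -/
theorem law_update_of_act (η : ℝ) (μ : V → Measure ℂ) {l : V → Bool} {x : V} (hx : L.act l x)
    (ν : Measure ℂ) :
    L.law η (Function.update μ x ν) l = Function.update (L.law η μ l) x ν := by
  funext y
  rcases eq_or_ne y x with rfl | hy
  · rw [L.law_of_act _ _ hx, Function.update_self, Function.update_self]
  · simp only [law, Function.update_of_ne hy]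

omit [Fintype V] in
/-- changing the active law at an inactive site -/
theorem law_update_of_not_act (η : ℝ) (μ : V → Measure ℂ) {l : V → Bool} {x : V}
    (hx : ¬L.act l x) (ν : Measure ℂ) :
    L.law η (Function.update μ x ν) l = L.law η μ l := by
  funext y
  rcases eq_or_ne y x with rfl | hy
  · rw [L.law_of_not_act _ _ hx, L.law_of_not_act _ _ hx]
  · simp only [law, Function.update_of_ne hy]

theorem isProb_ens (hh : 0 < h) (η : ℝ) (μ : V → Measure ℂ) [∀ x, IsProbabilityMeasure (μ x)] :
    IsProbabilityMeasure (L.ens η μ) := by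
  have := L.isProb_law hh η μ
  refine ⟨?_⟩
  simp only [ens, Measure.finsetSum_apply, Measure.smul_apply, measure_univ, smul_eq_mul, mul_one]
  exact L.sum_ofReal_P

theorem lintegral_ens (η : ℝ) (μ : V → Measure ℂ) (F : (V → ℂ) → ℝ≥0∞) :
    ∫⁻ w, F w ∂L.ens η μ =
      ∑ l, ENNReal.ofReal (L.P l) * ∫⁻ w, F w ∂Measure.pi (L.law η μ l) := by
  simp only [ens, lintegral_finsetSum_measure, lintegral_smul_measure, smul_eq_mul]

theorem integral_ens (η : ℝ) (μ : V → Measure ℂ) {F : (V → ℂ) → ℝ}
    (hF : ∀ l, Integrable F (Measure.pi (L.law η μ l))) :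
    ∫ w, F w ∂L.ens η μ = ∑ l, L.P l * ∫ w, F w ∂Measure.pi (L.law η μ l) := by
  rw [ens, integral_finsetSum_measure fun l _ => (hF l).smul_measure ENNReal.ofReal_ne_top]
  refine Finset.sum_congr rfl fun l _ => ?_
  rw [integral_smul_measure, ENNReal.toReal_ofReal (L.P_nonneg l), smul_eq_mul]

theorem ae_ens (hh : 0 < h) (η : ℝ) (μ : V → Measure ℂ) [∀ x, IsProbabilityMeasure (μ x)]
    {p : V → ℂ → Prop} (hp : ∀ l x, ∀ᵐ t ∂L.law η μ l x, p x t) :
    ∀ᵐ w ∂L.ens η μ, ∀ x, p x (w x) := by
  have := L.isProb_law hh η μ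
  rw [ens, ← Measure.sum_fintype, Measure.ae_sum_iff]
  intro l
  refine Measure.ae_smul_measure ?_ _
  rw [ae_all_iff]
  exact fun x => Measure.tendsto_eval_ae_ae.eventually (hp l x)

/-- **Final state.**  If the active laws are the closed `win` laws, the ensemble is the product
of the closed uniform laws. -/
theorem ens_final (hh : 0 < h) (η : ℝ) (μ : V → Measure ℂ)
    (hμ : ∀ l x, L.act l x → μ x = lift η (dens ((L.site x).den (l x)))) :
    L.ens η μ = Measure.pi fun _ : V => lift η (dens (ud h)) := by
  have hP := fun x l => (L.site x).isProb_den hh l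
  have h1 := pi_mix (fun x l => ENNReal.ofReal ((L.site x).pr l)) (fun _ _ => ENNReal.ofReal_ne_top)
    fun x l => lift η (dens ((L.site x).den l))
  have h2 : ∀ x, ∑ l, ENNReal.ofReal ((L.site x).pr l) • lift η (dens ((L.site x).den l)) =
      lift η (dens (ud h)) := fun x => by
    rw [← (L.site x).mix', Fintype.sum_bool, Fintype.sum_bool, lift_add, lift_smul, lift_smul]
  simp only [h2] at h1
  rw [h1, ens]
  refine Finset.sum_congr rfl fun l _ => ?_
  congr 1
  · exact ENNReal.ofReal_prod_of_nonneg fun x _ => (L.site x).pr_nonneg _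
  · congr 1
    funext x
    by_cases hx : L.act l x
    · rw [L.law_of_act _ _ hx, hμ l x hx]
    · rw [L.law_of_not_act _ _ hx]

omit [Fintype V] in
theorem force_of_mem {B : Finset V} (l : V → Bool) {x : V} (hx : x ∈ B) : force B l x = true :=
  if_pos hx

omit [Fintype V] in
theorem force_of_notMem {B : Finset V} (l : V → Bool) {x : V} (hx : x ∉ B) : force B l x = l x :=
  if_neg hx

omit [Fintype V] in
theorem force_eq_self {B : Finset V} {l : V → Bool} (hl : ∀ x ∈ B, l x = true) : force B l = l := by
  funext x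
  by_cases hx : x ∈ B
  · rw [force_of_mem l hx, hl x hx]
  · exact force_of_notMem l hx

/-- one forced label -/
theorem sum_force_one (y : V) (F : (V → Bool) → ℝ≥0∞) :
    ∑ l, ENNReal.ofReal (L.P l) * (if l y = true then F l else 0) =
      ENNReal.ofReal (L.site y).z * ∑ l, ENNReal.ofReal (L.P l) * F (Function.update l y true) := by
  set e := Equiv.funSplitAt y Bool
  have hP : ∀ (b : Bool) (r : {j // j ≠ y} → Bool), L.P (e.symm (b, r)) =
      (L.site y).pr b * ∏ j : {j // j ≠ y}, (L.site j).pr (r j) := by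
    intro b r
    rw [P, Fintype.prod_eq_mul_prod_subtype_ne _ y]
    congr 1
    · simp [e]
    · exact Finset.prod_congr rfl fun j _ => by simp [e, j.2]
  have hy : ∀ (b : Bool) (r : {j // j ≠ y} → Bool), e.symm (b, r) y = b := by
    intro b r; simp [e]
  have hu : ∀ (b : Bool) (r : {j // j ≠ y} → Bool),
      Function.update (e.symm (b, r)) y true = e.symm (true, r) := by
    intro b r
    funext j
    rcases eq_or_ne j y with rfl | hj
    · rw [Function.update_self, hy]
    · rw [Function.update_of_ne hj]; simp [e, hj]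
  rw [← e.symm.sum_comp, ← e.symm.sum_comp (fun l => ENNReal.ofReal (L.P l) *
    F (Function.update l y true)), Fintype.sum_prod_type, Fintype.sum_prod_type, Finset.sum_comm,
    Finset.sum_comm (s := (univ : Finset Bool)), Finset.mul_sum]
  refine Finset.sum_congr rfl fun r _ => ?_
  have hz := (L.site y).z_nonneg
  have hz' := (L.site y).one_sub_pos.le
  simp only [Fintype.sum_bool, hP, hy, hu, Site.pr, if_true, Bool.false_eq_true, if_false, mul_zero,
    add_zero, ENNReal.ofReal_mul hz, ENNReal.ofReal_mul hz']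
  rw [← add_mul, ← add_mul, ← ENNReal.ofReal_add hz hz']
  simp [mul_assoc]

/-- **Forced labels.** -/
theorem sum_force (B : Finset V) (F : (V → Bool) → ℝ≥0∞) :
    ∑ l, ENNReal.ofReal (L.P l) * (if ∀ x ∈ B, l x = true then F l else 0) =
      ENNReal.ofReal (∏ x ∈ B, (L.site x).z) * ∑ l, ENNReal.ofReal (L.P l) * F (force B l) := by
  induction B using Finset.induction_on generalizing F with
  | empty =>
    have : ∀ l : V → Bool, force ∅ l = l := fun l => force_eq_self (by simp)
    simp [this]
  | insert y B hy ih =>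
    have e1 : ∀ l : V → Bool, (if ∀ x ∈ insert y B, l x = true then F l else 0) =
        if ∀ x ∈ B, l x = true then (if l y = true then F l else 0) else 0 := fun l => by
      simp only [Finset.forall_mem_insert]
      by_cases h1 : l y = true <;> by_cases h2 : ∀ x ∈ B, l x = true <;> simp [h1, h2]
    have e2 : ∀ l : V → Bool, force B l y = l y := fun l => force_of_notMem l hy
    have e3 : ∀ l : V → Bool, force B (Function.update l y true) = force (insert y B) l := by
      intro l
      funext x
      rcases eq_or_ne x y with rfl | hx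
      · simp [force]
      · simp [force, hx]
    simp only [e1]
    rw [ih, Finset.prod_insert hy, mul_comm (L.site y).z,
      ENNReal.ofReal_mul (Finset.prod_nonneg fun x _ => (L.site x).z_nonneg), mul_assoc]
    congr 1
    simp only [e2]
    rw [L.sum_force_one y fun l => F (force B l)]
    simp only [e3]

end Lab

end Crest.Agent.N334.I
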