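import Mathlib

/-!
# Row 334, S0519 (helper21): Combes–Thomas estimate in flux form

`ψ` solves `(A + diag w) ψ = δ_b` with `A` real symmetric and `Im w ≤ 0`.  If the weight `φ` only
changes (by at most `lam`) across bonds whose ends are damped by at least `g`, then
`∑ₓ σ_b σ_x e^{2 φ x} |ψ x|² ≤ 2 e^{2 φ b}` where `σ = -Im w`.
-/

set_option autoImplicit false

open Finset

namespace Crest.Agent.N334.I

variable {ι : Type*} [Fintype ι] [DecidableEq ι]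

/-- weighted flux identity -/
theorem flux_identity (A : ι → ι → ℝ) (hA : ∀ x y, A x y = A y x) (w ψ : ι → ℂ) (b : ι)
    (hψ : ∀ x, ∑ y, (A x y : ℂ) * ψ y + w x * ψ x = if x = b then 1 else 0) (W : ι → ℝ) :
    ∑ x, W x * (-(w x).im) * ‖ψ x‖ ^ 2 =
      W b * (ψ b).im + (1 / 2) * ∑ x, ∑ y, (W x - W y) * A x y * (starRingEnd ℂ (ψ x) * ψ y).im := by
  have h1 : ∀ x, W x * (∑ y, A x y * (starRingEnd ℂ (ψ x) * ψ y).im) +
      W x * (w x).im * ‖ψ x‖ ^ 2 = if x = b then -(W b * (ψ b).im) else 0 := by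
    intro x
    have h := congrArg (fun t => (starRingEnd ℂ (ψ x) * t).im) (hψ x)
    simp only [mul_add, Finset.mul_sum, Complex.add_im, Complex.im_sum] at h
    have e1 : ∀ y, (starRingEnd ℂ (ψ x) * ((A x y : ℂ) * ψ y)).im =
        A x y * (starRingEnd ℂ (ψ x) * ψ y).im := by
      intro y
      rw [mul_left_comm, Complex.im_ofReal_mul]
    have e2 : (starRingEnd ℂ (ψ x) * (w x * ψ x)).im = (w x).im * ‖ψ x‖ ^ 2 := by
      rw [mul_left_comm, Complex.conj_mul', ← Complex.ofReal_pow, Complex.im_mul_ofReal]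
    simp only [e1, e2] at h
    rw [mul_assoc, ← mul_add, h]
    by_cases hx : x = b
    · subst hx; simp
    · simp [hx]
  have h2 := Finset.sum_congr rfl (fun x (_ : x ∈ (univ : Finset ι)) => h1 x)
  rw [Finset.sum_add_distrib, Finset.sum_ite_eq' univ b] at h2
  simp only [Finset.mem_univ, if_true] at h2
  have h3 : ∑ x, ∑ y, (W x - W y) * A x y * (starRingEnd ℂ (ψ x) * ψ y).im =
      2 * ∑ x, W x * (∑ y, A x y * (starRingEnd ℂ (ψ x) * ψ y).im) := by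
    have e : ∑ x, ∑ y, W y * A x y * (starRingEnd ℂ (ψ x) * ψ y).im =
        -∑ x, ∑ y, W x * A x y * (starRingEnd ℂ (ψ x) * ψ y).im := by
      rw [Finset.sum_comm, ← Finset.sum_neg_distrib]
      refine Finset.sum_congr rfl fun x _ => ?_
      rw [← Finset.sum_neg_distrib]
      refine Finset.sum_congr rfl fun y _ => ?_
      rw [hA y x]
      simp only [Complex.mul_im, Complex.conj_re, Complex.conj_im]
      ring
    have e' : ∑ x, W x * (∑ y, A x y * (starRingEnd ℂ (ψ x) * ψ y).im) =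
        ∑ x, ∑ y, W x * A x y * (starRingEnd ℂ (ψ x) * ψ y).im := by
      simp only [Finset.mul_sum, mul_assoc]
    simp only [sub_mul, Finset.sum_sub_distrib]
    rw [e, e']
    ring
  have h4 : ∑ x, W x * (-(w x).im) * ‖ψ x‖ ^ 2 = -∑ x, W x * (w x).im * ‖ψ x‖ ^ 2 := by
    rw [← Finset.sum_neg_distrib]
    exact Finset.sum_congr rfl fun x _ => by ring
  rw [h3, h4]
  linarith

/-- Ward identity -/
theorem ward (A : ι → ι → ℝ) (hA : ∀ x y, A x y = A y x) (w ψ : ι → ℂ) (b : ι)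
    (hψ : ∀ x, ∑ y, (A x y : ℂ) * ψ y + w x * ψ x = if x = b then 1 else 0) :
    ∑ x, (-(w x).im) * ‖ψ x‖ ^ 2 = (ψ b).im := by
  have := flux_identity A hA w ψ b hψ fun _ => 1
  simpa using this

/-- `σ_b |G(b,b)| ≤ 1` -/
theorem sig_mul_norm_le (A : ι → ι → ℝ) (hA : ∀ x y, A x y = A y x) (w ψ : ι → ℂ) (b : ι)
    (hw : ∀ x, (w x).im ≤ 0)
    (hψ : ∀ x, ∑ y, (A x y : ℂ) * ψ y + w x * ψ x = if x = b then 1 else 0) :
    (-(w b).im) * ‖ψ b‖ ≤ 1 := by
  have h1 := ward A hA w ψ b hψ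
  have h2 : (-(w b).im) * ‖ψ b‖ ^ 2 ≤ ∑ x, (-(w x).im) * ‖ψ x‖ ^ 2 :=
    Finset.single_le_sum (f := fun x => (-(w x).im) * ‖ψ x‖ ^ 2)
      (fun x _ => mul_nonneg (neg_nonneg.2 (hw x)) (sq_nonneg _)) (mem_univ b)
  have h3 : (ψ b).im ≤ ‖ψ b‖ := (le_abs_self _).trans (Complex.abs_im_le_norm _)
  rcases (norm_nonneg (ψ b)).eq_or_lt with h | h
  · rw [← h]; simp
  · refine le_of_mul_le_mul_right ?_ h
    nlinarith

theorem abs_exp_sub_le {s t lam : ℝ} (h : |s - t| ≤ lam) :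
    |Real.exp (2 * s) - Real.exp (2 * t)| ≤ 2 * Real.sinh lam * (Real.exp s * Real.exp t) := by
  have e : Real.exp (2 * s) - Real.exp (2 * t) =
      2 * Real.sinh (s - t) * (Real.exp s * Real.exp t) := by
    rw [Real.sinh_eq, ← Real.exp_add, mul_div_cancel₀ _ (two_ne_zero), sub_mul, ← Real.exp_add,
      ← Real.exp_add]
    congr 2 <;> ring
  rw [e, abs_mul, abs_mul, abs_of_pos (mul_pos (Real.exp_pos s) (Real.exp_pos t)), abs_two,
    Real.abs_sinh]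
  gcongr
  exact Real.sinh_le_sinh.2 h

theorem sinh_le_two_mul {x : ℝ} (h0 : 0 ≤ x) (h1 : x ≤ 1) : Real.sinh x ≤ 2 * x := by
  rw [Real.sinh_eq]
  have a := Real.abs_exp_sub_one_le (x := x) (by rw [abs_of_nonneg h0]; exact h1)
  have b := Real.add_one_le_exp (-x)
  rw [abs_of_nonneg h0] at a
  have := le_abs_self (Real.exp x - 1)
  linarith

/-- **Combes–Thomas, flux form.** -/
theorem ct_flux (A : ι → ι → ℝ) (hA : ∀ x y, A x y = A y x) {D : ℝ} (hD : ∀ x, ∑ y, |A x y| ≤ D)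
    (w ψ : ι → ℂ) (b : ι) (hw : ∀ x, (w x).im ≤ 0)
    (hψ : ∀ x, ∑ y, (A x y : ℂ) * ψ y + w x * ψ x = if x = b then 1 else 0)
    (φ : ι → ℝ) {lam g : ℝ} (hlam : 0 ≤ lam) (hg : 2 * D * Real.sinh lam ≤ g)
    (hφ : ∀ x y, A x y ≠ 0 → |φ x - φ y| ≤ lam)
    (hφ' : ∀ x y, A x y ≠ 0 → φ x ≠ φ y → g ≤ -(w x).im) :
    ∑ x, Real.exp (2 * φ x) * (-(w x).im) * ‖ψ x‖ ^ 2 ≤ 2 * Real.exp (2 * φ b) * (ψ b).im := by
  have hsh : 0 ≤ Real.sinh lam := Real.sinh_nonneg_iff.2 hlam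
  have hid := flux_identity A hA w ψ b hψ fun x => Real.exp (2 * φ x)
  set S := ∑ x, Real.exp (2 * φ x) * (-(w x).im) * ‖ψ x‖ ^ 2 with hS
  classical
  -- indicator of damped sites
  set m : ι → ℝ := fun x => if g ≤ -(w x).im then Real.exp (2 * φ x) * ‖ψ x‖ ^ 2 else 0 with hm
  have hm0 : ∀ x, 0 ≤ m x := fun x => by
    simp only [hm]; split_ifs <;> positivity
  have hterm : ∀ x y, (Real.exp (2 * φ x) - Real.exp (2 * φ y)) * A x y *
      (starRingEnd ℂ (ψ x) * ψ y).im ≤ Real.sinh lam * (|A x y| * m x + |A y x| * m y) := by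
    intro x y
    rw [hA y x]
    by_cases h0 : A x y = 0
    · simp [h0]
    by_cases h1 : φ x = φ y
    · rw [h1, sub_self, zero_mul, zero_mul]
      exact mul_nonneg hsh (add_nonneg (mul_nonneg (abs_nonneg _) (hm0 x))
        (mul_nonneg (abs_nonneg _) (hm0 y)))
    have gx := hφ' x y h0 h1
    have gy := hφ' y x (by rwa [hA y x]) (Ne.symm h1)
    simp only [hm, if_pos gx, if_pos gy]
    have a1 := abs_exp_sub_le (hφ x y h0)
    have a2 : |(starRingEnd ℂ (ψ x) * ψ y).im| ≤ ‖ψ x‖ * ‖ψ y‖ := by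
      refine (Complex.abs_im_le_norm _).trans ?_
      rw [norm_mul, Complex.norm_conj]
    refine (le_abs_self _).trans ?_
    rw [abs_mul, abs_mul]
    have a3 : Real.exp (2 * φ x) = Real.exp (φ x) ^ 2 := by rw [← Real.exp_nat_mul]; simp
    have a4 : Real.exp (2 * φ y) = Real.exp (φ y) ^ 2 := by rw [← Real.exp_nat_mul]; simp
    calc |Real.exp (2 * φ x) - Real.exp (2 * φ y)| * |A x y| *
          |(starRingEnd ℂ (ψ x) * ψ y).im|
        ≤ 2 * Real.sinh lam * (Real.exp (φ x) * Real.exp (φ y)) * |A x y| * (‖ψ x‖ * ‖ψ y‖) := by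
          gcongr
      _ = Real.sinh lam * |A x y| *
            (2 * (Real.exp (φ x) * ‖ψ x‖) * (Real.exp (φ y) * ‖ψ y‖)) := by ring
      _ ≤ Real.sinh lam * |A x y| *
            ((Real.exp (φ x) * ‖ψ x‖) ^ 2 + (Real.exp (φ y) * ‖ψ y‖) ^ 2) := by
          gcongr
          exact two_mul_le_add_sq _ _
      _ = _ := by rw [a3, a4]; ring
  have hsum : ∑ x, ∑ y, (Real.exp (2 * φ x) - Real.exp (2 * φ y)) * A x y *
      (starRingEnd ℂ (ψ x) * ψ y).im ≤ Real.sinh lam * (2 * D * ∑ x, m x) := by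
    refine (Finset.sum_le_sum fun x _ => Finset.sum_le_sum fun y _ => hterm x y).trans ?_
    simp only [← Finset.mul_sum]
    refine mul_le_mul_of_nonneg_left ?_ hsh
    simp only [Finset.sum_add_distrib]
    have e : ∑ x, ∑ y, |A x y| * m x ≤ D * ∑ x, m x := by
      rw [Finset.mul_sum]
      refine Finset.sum_le_sum fun x _ => ?_
      rw [← Finset.sum_mul]
      exact mul_le_mul_of_nonneg_right (hD x) (hm0 x)
    have e' : ∑ x, ∑ y, |A y x| * m y = ∑ x, ∑ y, |A x y| * m x := Finset.sum_comm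
    linarith
  have hgm : g * ∑ x, m x ≤ S := by
    rw [Finset.mul_sum]
    refine Finset.sum_le_sum fun x _ => ?_
    simp only [hm]
    split_ifs with h
    · have : 0 ≤ Real.exp (2 * φ x) * ‖ψ x‖ ^ 2 := by positivity
      nlinarith
    · rw [mul_zero]
      exact mul_nonneg (mul_nonneg (Real.exp_pos _).le (neg_nonneg.2 (hw x))) (sq_nonneg _)
  have hM : 0 ≤ ∑ x, m x := Finset.sum_nonneg fun x _ => hm0 x
  have : Real.sinh lam * (2 * D * ∑ x, m x) ≤ S := by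
    refine le_trans ?_ hgm
    nlinarith
  linarith

/-- port form: `∑ₓ σ_b σ_x e^{2 φ x} |ψ x|² ≤ 2 e^{2 φ b}` -/
theorem ct_port (A : ι → ι → ℝ) (hA : ∀ x y, A x y = A y x) {D : ℝ} (hD : ∀ x, ∑ y, |A x y| ≤ D)
    (w ψ : ι → ℂ) (b : ι) (hw : ∀ x, (w x).im ≤ 0)
    (hψ : ∀ x, ∑ y, (A x y : ℂ) * ψ y + w x * ψ x = if x = b then 1 else 0)
    (φ : ι → ℝ) {lam g : ℝ} (hlam : 0 ≤ lam) (hg : 2 * D * Real.sinh lam ≤ g)
    (hφ : ∀ x y, A x y ≠ 0 → |φ x - φ y| ≤ lam)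
    (hφ' : ∀ x y, A x y ≠ 0 → φ x ≠ φ y → g ≤ -(w x).im) :
    ∑ x, Real.exp (2 * φ x) * ((-(w b).im) * (-(w x).im) * ‖ψ x‖ ^ 2) ≤
      2 * Real.exp (2 * φ b) := by
  have h1 := ct_flux A hA hD w ψ b hw hψ φ hlam hg hφ hφ'
  have h2 := sig_mul_norm_le A hA w ψ b hw hψ
  have h3 : (ψ b).im ≤ ‖ψ b‖ := (le_abs_self _).trans (Complex.abs_im_le_norm _)
  have hb : 0 ≤ -(w b).im := neg_nonneg.2 (hw b)
  have e : ∑ x, Real.exp (2 * φ x) * ((-(w b).im) * (-(w x).im) * ‖ψ x‖ ^ 2) =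
      (-(w b).im) * ∑ x, Real.exp (2 * φ x) * (-(w x).im) * ‖ψ x‖ ^ 2 := by
    rw [Finset.mul_sum]
    exact Finset.sum_congr rfl fun x _ => by ring
  rw [e]
  have h4 : (-(w b).im) * (ψ b).im ≤ 1 := (mul_le_mul_of_nonneg_left h3 hb).trans h2
  have h5 := Real.exp_pos (2 * φ b)
  calc _ ≤ (-(w b).im) * (2 * Real.exp (2 * φ b) * (ψ b).im) := mul_le_mul_of_nonneg_left h1 hb
    _ = 2 * Real.exp (2 * φ b) * ((-(w b).im) * (ψ b).im) := by ring
    _ ≤ 2 * Real.exp (2 * φ b) * 1 := by gcongr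
    _ = _ := mul_one _

end Crest.Agent.N334.I
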