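import Crest.Agent.N334.I.Geo
import Crest.Agent.N334.I.CT

/-!
# Row 334, S0519 (helper21): Combes–Thomas along the corridors
-/

set_option autoImplicit false

open Finset

namespace Crest.Agent.N334.I

namespace Geo

variable (g : Geo)

/-- number of cells per direction -/
def m : ℕ := g.M / (4 * g.b)

theorem mul_m : 4 * g.b * g.m = g.M := Nat.mul_div_cancel' g.dvd₂

instance : NeZero g.m := ⟨fun h => NeZero.ne g.M (by rw [← g.mul_m, h, mul_zero])⟩

/-- coarse graining; it only changes across a corridor -/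
def co (x : Tor g.M) : Tor g.m := fun j => ((((x j).val + 1) / (4 * g.b) : ℕ) : ZMod g.m)

theorem co_add_single (x : Tor g.M) (j : Fin 2) : g.co (x + Pi.single j 1) = g.co x ∨
    (g.co (x + Pi.single j 1) = g.co x + Pi.single j 1 ∧ g.plain x ∧
      g.plain (x + Pi.single j 1)) := by
  have hb := g.eight_le_b
  have hM := g.three_le_M
  have : Fact (1 < g.M) := ⟨by omega⟩
  have hv : ((x + Pi.single j 1 : Tor g.M) j).val = ((x j).val + 1) % g.M := by
    rw [Pi.add_apply, Pi.single_eq_same, ZMod.val_add, ZMod.val_one]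
  have ext : ∀ u : ZMod g.m, g.co (x + Pi.single j 1) j = g.co x j + u →
      g.co (x + Pi.single j 1) = g.co x + Pi.single j u := fun u hu => by
    funext i
    rcases eq_or_ne i j with rfl | hi
    · simpa using hu
    · simp [co, hi]
  rcases (Nat.succ_le_of_lt (ZMod.val_lt (x j))).eq_or_lt with h | h
  · left
    have h' : (x j).val + 1 = g.M := h
    have := ext 0 (by
      simp only [co, hv, h', Nat.mod_self, zero_add, add_zero]
      rw [Nat.div_eq_of_lt (by omega), Nat.cast_zero]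
      exact (ZMod.natCast_self g.m).symm)
    simpa using this
  have h' : (x j).val + 1 < g.M := h
  rw [Nat.mod_eq_of_lt h'] at hv
  have hs := Nat.succ_div (a := (x j).val + 1) (b := 4 * g.b)
  by_cases hd : 4 * g.b ∣ (x j).val + 1 + 1
  · right
    obtain ⟨k, hk⟩ := hd
    obtain ⟨k, rfl⟩ : ∃ k', k = k' + 1 := ⟨k - 1, by
      rcases k with _ | k
      · omega
      · rfl⟩
    rw [mul_add, mul_one] at hk
    refine ⟨ext 1 ?_, g.plain_of_corridor (j := j) ?_, g.plain_of_corridor (j := j) ?_⟩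
    · simp only [co, hv, hs]
      rw [if_pos ⟨k + 1, by rw [mul_add, mul_one]; exact hk⟩]
      push_cast; rfl
    · rw [show (x j).val = 4 * g.b - 2 + 4 * g.b * k by omega, Nat.add_mul_mod_self_left,
        Nat.mod_eq_of_lt (by omega)]
      omega
    · rw [hv, show (x j).val + 1 = 4 * g.b - 1 + 4 * g.b * k by omega, Nat.add_mul_mod_self_left,
        Nat.mod_eq_of_lt (by omega)]
      omega
  · left
    have := ext 0 (by simp only [co, hv, hs, if_neg hd, add_zero])
    simpa using this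

theorem co_adj {x y : Tor g.M} (h : tadj x y ≠ 0) :
    d1 (g.co x) (g.co y) ≤ 1 ∧ (g.co x ≠ g.co y → g.plain x) := by
  obtain ⟨j, rfl | rfl⟩ := tadj_ne_zero h
  · rcases g.co_add_single x j with h | h
    · simp [h]
    · exact ⟨by rw [h.1, d1_comm]; exact d1_add_single_le _ _, fun _ => h.2.1⟩
  · have := g.co_add_single (x - Pi.single j 1) j
    rw [sub_add_cancel] at this
    rcases this with h | h
    · simp [h]
    · exact ⟨by rw [h.1]; exact d1_add_single_le _ _, fun _ => h.2.2⟩

theorem d1_le_co (x y : Tor g.M) : d1 x y ≤ 4 * g.b * (d1 (g.co x) (g.co y) + 2) := by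
  have hb := g.eight_le_b
  have key : ∀ j, (off y x j).natAbs ≤ 4 * g.b * (off (g.co y) (g.co x) j).natAbs + 4 * g.b := by
    intro j
    set k := off (g.co y) (g.co x) j with hk
    have h1 := Nat.div_add_mod ((x j).val + 1) (4 * g.b)
    have h2 := Nat.div_add_mod ((y j).val + 1) (4 * g.b)
    have h3 := Nat.mod_lt ((x j).val + 1) (show 0 < 4 * g.b by omega)
    have h4 := Nat.mod_lt ((y j).val + 1) (show 0 < 4 * g.b by omega)
    set q := ((x j).val + 1) / (4 * g.b)
    set q' := ((y j).val + 1) / (4 * g.b)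
    set r := ((x j).val + 1) % (4 * g.b)
    set r' := ((y j).val + 1) % (4 * g.b)
    have h5 : (((q : ℤ) - q' - k : ℤ) : ZMod g.m) = 0 := by
      have e : ((k : ℤ) : ZMod g.m) = (q : ZMod g.m) - (q' : ZMod g.m) := ZMod.coe_valMinAbs _
      rw [Int.cast_sub, Int.cast_sub, e, Int.cast_natCast, Int.cast_natCast, sub_self]
    obtain ⟨n, hn⟩ := (ZMod.intCast_zmod_eq_zero_iff_dvd _ _).1 h5
    have h6 : ((x j).val : ℤ) = (y j).val + ((4 * g.b : ℕ) * k + (r - r')) + (g.M : ℤ) * n := by
      have e := g.mul_m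
      zify at h1 h2 e
      push_cast
      linear_combination h2 - h1 + 4 * (g.b : ℤ) * hn + n * e
    have h7 : x j = y j + ((((4 * g.b : ℕ) : ℤ) * k + (r - r') : ℤ) : ZMod g.M) := by
      have := congrArg (Int.cast : ℤ → ZMod g.M) h6
      simpa using this
    refine (natAbs_off_le y x j h7).trans ((Int.natAbs_add_le _ _).trans ?_)
    rw [Int.natAbs_mul, Int.natAbs_natCast]
    omega
  have h0 := key 0
  have h1 := key 1
  simp only [d1, n1_eq, mul_add]
  omega

/-- **Moments in the initial state.** -/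
theorem moment_le (w ψ : Tor g.M → ℂ) (y : Tor g.M) (hw : ∀ x, (w x).im ≤ 0)
    (hψ : ∀ x, ∑ z, (tadj x z : ℂ) * ψ z + w x * ψ x = if x = y then 1 else 0)
    {s lam : ℝ} (h0 : 0 < lam) (h1 : lam ≤ 1) (hs : 16 * lam ≤ s)
    (hpl : ∀ x, g.plain x → s ≤ -(w x).im) (p : ℕ) :
    ∑ x, (d1 x y : ℝ) ^ p * ((-(w y).im) * (-(w x).im) * ‖ψ x‖ ^ 2) ≤
      2 * (Real.exp 4 * p.factorial * (2 * g.b / lam) ^ p) := by
  have h := ct_port tadj tadj_symm sum_abs_tadj w ψ y hw hψ
    (fun x => lam * d1 (g.co x) (g.co y)) (lam := lam) (g := s) h0.le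
    (by linarith [sinh_le_two_mul h0.le h1])
    (fun x z hxz => by
      have a1 := (g.co_adj hxz).1
      have a2 := d1_triangle (g.co x) (g.co z) (g.co y)
      have a3 := d1_triangle (g.co z) (g.co x) (g.co y)
      rw [d1_comm (g.co z) (g.co x)] at a3
      rw [← mul_sub, abs_mul, abs_of_pos h0]
      refine mul_le_of_le_one_right h0.le (abs_le.2 ⟨?_, ?_⟩)
      · have : (d1 (g.co z) (g.co y) : ℝ) ≤ 1 + d1 (g.co x) (g.co y) := by
          exact_mod_cast (by omega : d1 (g.co z) (g.co y) ≤ 1 + d1 (g.co x) (g.co y))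
        linarith
      · have : (d1 (g.co x) (g.co y) : ℝ) ≤ 1 + d1 (g.co z) (g.co y) := by
          exact_mod_cast (by omega : d1 (g.co x) (g.co y) ≤ 1 + d1 (g.co z) (g.co y))
        linarith)
    fun x z hxz hne => hpl x ((g.co_adj hxz).2 fun e => hne (by rw [e]))
  simp only [d1_self, Nat.cast_zero, mul_zero, Real.exp_zero, mul_one] at h
  refine le_trans ?_ (le_of_le_of_eq (mul_le_mul_of_nonneg_left h
    (show 0 ≤ Real.exp 4 * p.factorial * (2 * g.b / lam) ^ p by positivity)) (mul_comm _ _))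
  rw [Finset.mul_sum]
  refine Finset.sum_le_sum fun x _ => ?_
  rw [← mul_assoc (Real.exp 4 * p.factorial * (2 * g.b / lam) ^ p)]
  refine mul_le_mul_of_nonneg_right ?_
    (mul_nonneg (mul_nonneg (neg_nonneg.2 (hw y)) (neg_nonneg.2 (hw x))) (sq_nonneg _))
  set n : ℝ := (d1 (g.co x) (g.co y) : ℝ) with hn
  have n0 : 0 ≤ n := Nat.cast_nonneg _
  have a1 : (d1 x y : ℝ) ≤ 2 * g.b / lam * (2 * lam * (n + 2)) := by
    have : (d1 x y : ℝ) ≤ 4 * g.b * (n + 2) := by rw [hn]; exact_mod_cast g.d1_le_co x y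
    refine this.trans (le_of_eq ?_)
    field_simp; ring
  have a2 := Real.pow_div_factorial_le_exp (2 * lam * (n + 2)) (by positivity) p
  rw [div_le_iff₀ (by positivity)] at a2
  have a3 : Real.exp (2 * lam * (n + 2)) ≤ Real.exp 4 * Real.exp (2 * (lam * n)) := by
    rw [← Real.exp_add]; exact Real.exp_le_exp.2 (by nlinarith)
  calc (d1 x y : ℝ) ^ p ≤ (2 * g.b / lam * (2 * lam * (n + 2))) ^ p := by gcongr
    _ = (2 * g.b / lam) ^ p * (2 * lam * (n + 2)) ^ p := mul_pow _ _ _
    _ ≤ (2 * g.b / lam) ^ p * (Real.exp 4 * Real.exp (2 * (lam * n)) * p.factorial) := by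
        gcongr
        exact a2.trans (by gcongr)
    _ = _ := by ring

end Geo

end Crest.Agent.N334.I
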