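import Mathlib

/-!
# Row 334, S0519 (helper21): labels, ensembles, class-0 laws, deterministic geometry

* `dens f`, `ud h`, `lift g ν`: laws of the real part and of `w = a - i g`.
* `Site h`: splitting `unif = z • win + (1 - z) • rest` at one site.
* `Lab V h`: labels on a finite set; `L.ens η μ` is the ensemble in which the active sites have
  the laws `μ x` and all other sites are closed.
* `lawC h η c`: the class-0 law at clock `c`.
* `Geo`: torus, tiles, cells, blocks; `Geo.lab`: the labels of the torus.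
-/

set_option autoImplicit false

open MeasureTheory Finset

namespace Crest.Agent.N334.I

/-! ### laws -/

/-- law with density `f` -/
noncomputable def dens (f : ℝ → ℝ) : Measure ℝ := volume.withDensity fun a => ENNReal.ofReal (f a)

/-- uniform density on `[-h, h]` -/
noncomputable def ud (h a : ℝ) : ℝ := if |a| ≤ h then 1 / (2 * h) else 0

/-- the point `a - i g` -/
noncomputable def pt (g a : ℝ) : ℂ := (a : ℂ) - (g : ℂ) * Complex.I

/-- law of `a - i g`, `a ∼ ν` -/
noncomputable def lift (g : ℝ) (ν : Measure ℝ) : Measure ℂ := ν.map (pt g)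

/-- label data at one site: the label is `true` with probability `z`, then the value has density
`wd`; otherwise it has density `rd` -/
structure Site (h : ℝ) where
  z : ℝ
  wd : ℝ → ℝ
  meas : Measurable wd
  nonneg : ∀ a, 0 ≤ wd a
  mass : ∫⁻ a, ENNReal.ofReal (wd a) = 1
  z_nonneg : 0 ≤ z
  z_le : z ≤ 1 / 2
  le : ∀ a, z * wd a ≤ ud h a / 2

/-- density of the rest law -/
noncomputable def Site.rd {h : ℝ} (s : Site h) (a : ℝ) : ℝ := (ud h a - s.z * s.wd a) / (1 - s.z)

/-- density given the label -/
noncomputable def Site.den {h : ℝ} (s : Site h) (l : Bool) : ℝ → ℝ := if l then s.wd else s.rd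

/-- probability of the label -/
def Site.pr {h : ℝ} (s : Site h) (l : Bool) : ℝ := if l then s.z else 1 - s.z

theorem ud_nonneg {h : ℝ} (hh : 0 < h) (a : ℝ) : 0 ≤ ud h a := by
  unfold ud; split_ifs <;> positivity

theorem measurable_ud (h : ℝ) : Measurable (ud h) :=
  Measurable.ite (measurableSet_le (by fun_prop) measurable_const) measurable_const
    measurable_const

theorem lintegral_ud {h : ℝ} (hh : 0 < h) : ∫⁻ a, ENNReal.ofReal (ud h a) = 1 := by
  have : (fun a => ENNReal.ofReal (ud h a)) =
      (Set.Icc (-h) h).indicator fun _ => ENNReal.ofReal (1 / (2 * h)) := by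
    funext a
    by_cases ha : |a| ≤ h
    · rw [Set.indicator_of_mem (Set.mem_Icc.2 (abs_le.1 ha)), ud, if_pos ha]
    · rw [Set.indicator_of_notMem (fun h' => ha (abs_le.2 (Set.mem_Icc.1 h'))), ud, if_neg ha,
        ENNReal.ofReal_zero]
  rw [this, lintegral_indicator_const measurableSet_Icc, Real.volume_Icc,
    ← ENNReal.ofReal_mul (by positivity)]
  rw [show 1 / (2 * h) * (h - -h) = 1 by field_simp; ring, ENNReal.ofReal_one]

/-- trivial datum: the label is `false` almost surely, both laws are uniform -/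
noncomputable def Site.triv {h : ℝ} (hh : 0 < h) : Site h where
  z := 0
  wd := ud h
  meas := measurable_ud h
  nonneg := ud_nonneg hh
  mass := lintegral_ud hh
  z_nonneg := le_rfl
  z_le := by norm_num
  le a := by rw [zero_mul]; exact div_nonneg (ud_nonneg hh a) two_pos.le

/-! ### labelled ensembles -/

/-- Labels on `V`: `x` is active iff `can x` and all labels on `req x` are `true`. -/
structure Lab (V : Type) (h : ℝ) where
  site : V → Site h
  can : V → Prop
  req : V → Finset V

namespace Lab

variable {V : Type} [Fintype V] [DecidableEq V] {h : ℝ} (L : Lab V h)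

/-- active sites -/
def act (l : V → Bool) (x : V) : Prop := L.can x ∧ ∀ x' ∈ L.req x, l x' = true

/-- probability of a label field -/
def P (l : V → Bool) : ℝ := ∏ x, (L.site x).pr (l x)

open Classical in
/-- law of `w x` given the labels -/
noncomputable def law (η : ℝ) (μ : V → Measure ℂ) (l : V → Bool) (x : V) : Measure ℂ :=
  if L.act l x then μ x else lift η (dens ((L.site x).den (l x)))

/-- the ensemble -/
noncomputable def ens (η : ℝ) (μ : V → Measure ℂ) : Measure (V → ℂ) :=
  ∑ l : V → Bool, ENNReal.ofReal (L.P l) • Measure.pi (L.law η μ l)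

/-- labels forced to `true` on `B` -/
def force (B : Finset V) (l : V → Bool) : V → Bool := fun x => if x ∈ B then true else l x

end Lab

/-! ### class 0 -/

/-- probability to be open at clock `c` given the value `a` -/
noncomputable def chi (h : ℝ) (c : ℕ) (a : ℝ) : ℝ := max 0 (min 1 (2 - 2 ^ c * (h - |a|) / h))

/-- open part (a sub-probability law) at clock `c`: `γ = h / 2 ^ c` -/
noncomputable def opn (h η : ℝ) (c : ℕ) : Measure ℂ :=
  lift (η + h / 2 ^ c) (dens fun a => chi h c a * ud h a)

/-- closed part at clock `c` -/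
noncomputable def cls (h η : ℝ) (c : ℕ) : Measure ℂ :=
  lift η (dens fun a => (1 - chi h c a) * ud h a)

/-- class-0 law at clock `c` -/
noncomputable def lawC (h η : ℝ) (c : ℕ) : Measure ℂ := opn h η c + cls h η c

/-- class-0 law when the clock `c < N` has probability `q c` -/
noncomputable def law0 (h η : ℝ) (N : ℕ) (q : ℕ → ℝ) : Measure ℂ :=
  ∑ c ∈ range N, ENNReal.ofReal (q c) • lawC h η c

/-! ### geometry -/

/-- the discrete torus -/
abbrev Tor (M : ℕ) : Type := Fin 2 → ZMod M

section Torus

variable {M : ℕ}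

/-- centred coordinates of `x` seen from `y` -/
def off (y x : Tor M) : Fin 2 → ℤ := fun j => (x j - y j).valMinAbs

/-- the site `y + v` -/
def shift (y : Tor M) (v : Fin 2 → ℤ) : Tor M := fun j => y j + (v j : ZMod M)

/-- `ℓ¹` norm on `ℤ²` -/
def n1 (v : Fin 2 → ℤ) : ℕ := ∑ j, (v j).natAbs

/-- graph distance on the torus -/
def d1 (x y : Tor M) : ℕ := n1 (off y x)

/-- squared Euclidean distance on the torus -/
def dsq (x y : Tor M) : ℝ := ∑ j, (off y x j : ℝ) ^ 2

/-- adjacency matrix -/
def tadj (x y : Tor M) : ℝ :=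
  ∑ j, ((if y = x + Pi.single j 1 then 1 else 0) + if y = x - Pi.single j 1 then 1 else 0)

/-- the torus graph -/
def tgraph (M : ℕ) : SimpleGraph (Tor M) where
  Adj x y := d1 x y = 1
  symm := ⟨fun x y h => by
    have : ∀ j, (off x y j).natAbs = (off y x j).natAbs := fun j => by
      simp only [off]
      rw [← ZMod.natAbs_valMinAbs_neg, neg_sub]
    simpa [d1, n1, this] using h⟩
  loopless := ⟨fun x h => by simp [d1, n1, off] at h⟩

instance : DecidableRel (tgraph M).Adj := fun x y => inferInstanceAs (Decidable (d1 x y = 1))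

/-- closed ball -/
def ball [NeZero M] (y : Tor M) (r : ℕ) : Finset (Tor M) := univ.filter fun x => d1 x y ≤ r

end Torus

/-- Sizes: tiles of side `D₁ = 2 a`, cells of side `D₂ = 4 b` (`D₁ ∣ 2 b`), torus of side
`M = m D₂`; blocks are `ℓ¹` balls of radii `r₁`, `r₂`. -/
structure Geo where
  M : ℕ
  a : ℕ
  b : ℕ
  r₁ : ℕ
  r₂ : ℕ
  [ne : NeZero M]
  dvd₁ : a ∣ b
  dvd₂ : 4 * b ∣ M
  le₁ : r₁ + 8 ≤ a
  le₂ : r₂ + 8 ≤ b

attribute [instance] Geo.ne

namespace Geo

variable (g : Geo)

/-- the hole of a cell: its lower left square of side `2 b` -/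
def hole (x : Tor g.M) : Prop := ∀ j, (x j).val % (4 * g.b) < 2 * g.b

instance (x : Tor g.M) : Decidable (g.hole x) := inferInstanceAs (Decidable (∀ _, _))

/-- centre of the tile of `x` -/
def c₁ (x : Tor g.M) : Tor g.M := fun j => (((x j).val / (2 * g.a) * (2 * g.a) + g.a : ℕ) : ZMod g.M)

/-- centre of the hole of the cell of `x` -/
def c₂ (x : Tor g.M) : Tor g.M := fun j => (((x j).val / (4 * g.b) * (4 * g.b) + g.b : ℕ) : ZMod g.M)

/-- `x` lies in a block of class 1 -/
def blk₁ (x : Tor g.M) : Prop := ¬g.hole x ∧ d1 x (g.c₁ x) ≤ g.r₁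

/-- `x` lies in a block of class 2 -/
def blk₂ (x : Tor g.M) : Prop := d1 x (g.c₂ x) ≤ g.r₂

/-- class 0 -/
def plain (x : Tor g.M) : Prop := ¬g.hole x ∧ g.r₁ < d1 x (g.c₁ x)

/-- centres of class 1 -/
def ctr₁ (x : Tor g.M) : Prop := ¬g.hole x ∧ g.c₁ x = x

/-- centres of class 2 -/
def ctr₂ (x : Tor g.M) : Prop := g.c₂ x = x

instance (x : Tor g.M) : Decidable (g.blk₁ x) := inferInstanceAs (Decidable (_ ∧ _))
instance (x : Tor g.M) : Decidable (g.blk₂ x) := inferInstanceAs (Decidable (_ ≤ _))
instance (x : Tor g.M) : Decidable (g.plain x) := inferInstanceAs (Decidable (_ ∧ _))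
instance (x : Tor g.M) : Decidable (g.ctr₁ x) := inferInstanceAs (Decidable (_ ∧ _))
instance (x : Tor g.M) : Decidable (g.ctr₂ x) := inferInstanceAs (Decidable (_ = _))

/-- Labels of the torus: `B₁ v`, `B₂ v` are the data at offset `v` from the centre of a block
(`v = 0`: the port law). -/
noncomputable def lab {h : ℝ} (hh : 0 < h) (B₁ B₂ : (Fin 2 → ℤ) → Site h) : Lab (Tor g.M) h where
  site x := if g.blk₁ x then B₁ (off (g.c₁ x) x) else if g.blk₂ x then B₂ (off (g.c₂ x) x)
    else Site.triv hh
  can x := g.plain x ∨ g.ctr₁ x ∨ g.ctr₂ x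
  req x := if g.ctr₁ x then ball x g.r₁ else if g.ctr₂ x then ball x g.r₂ else ∅

/-- active laws by class -/
noncomputable def mu (μ₀ μ₁ μ₂ : Measure ℂ) (x : Tor g.M) : Measure ℂ :=
  if g.ctr₁ x then μ₁ else if g.ctr₂ x then μ₂ else μ₀

end Geo

end Crest.Agent.N334.I
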