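import Crest.Agent.N334.I.Tor
import Crest.Agent.N334.I.Mix

/-!
# Row 334, S0519 (helper21): tiles, cells, blocks
-/

set_option autoImplicit false

open MeasureTheory Finset

namespace Crest.Agent.N334.I

theorem val_shift {M : ℕ} [NeZero M] (y : Tor M) (v : Fin 2 → ℤ) (j : Fin 2)
    (h0 : 0 ≤ ((y j).val : ℤ) + v j) (h1 : ((y j).val : ℤ) + v j < M) :
    ((shift y v j).val : ℤ) = (y j).val + v j := by
  have : shift y v j = ((((y j).val : ℤ) + v j : ℤ) : ZMod M) := by simp [shift]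
  rw [this, ZMod.val_intCast, Int.emod_eq_of_lt h0 h1]

theorem natAbs_off_le {M : ℕ} [NeZero M] (y x : Tor M) (j : Fin 2) {k : ℤ}
    (hk : x j = y j + (k : ZMod M)) : (off y x j).natAbs ≤ k.natAbs :=
  ZMod.natAbs_min_of_le_div_two M _ _ (by rw [off, ZMod.coe_valMinAbs, hk]; ring)
    (ZMod.natAbs_valMinAbs_le _)

/-- grid points `q D + c` -/
theorem grid_lt {M D t c : ℕ} (hD : D ∣ M) (ht : t < M) (hc : c < D) : t / D * D + c < M := by
  obtain ⟨m, rfl⟩ := hD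
  have : t / D < m := Nat.div_lt_of_lt_mul ht
  calc t / D * D + c < (t / D + 1) * D := by rw [add_mul, one_mul]; omega
    _ ≤ m * D := Nat.mul_le_mul_right _ this
    _ = D * m := mul_comm _ _

section Grid

variable {M : ℕ} [NeZero M]

/-- the point `c` of the `D`-square containing `x` -/
def cen (D c : ℕ) (x : Tor M) : Tor M := fun j => (((x j).val / D * D + c : ℕ) : ZMod M)

variable {D c : ℕ}

theorem val_cen (hD : D ∣ M) (hc : c < D) (x : Tor M) (j : Fin 2) :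
    (cen D c x j).val = (x j).val / D * D + c :=
  ZMod.val_natCast_of_lt (grid_lt hD (ZMod.val_lt _) hc)

theorem div_cen (hD : D ∣ M) (hc : c < D) (x : Tor M) (j : Fin 2) :
    (cen D c x j).val / D = (x j).val / D := by
  rw [val_cen hD hc, add_comm, Nat.add_mul_div_right _ _ (by omega), Nat.div_eq_of_lt hc, zero_add]

theorem cen_cen (hD : D ∣ M) (hc : c < D) (x : Tor M) : cen D c (cen D c x) = cen D c x := by
  funext j
  rw [cen, div_cen hD hc]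
  rfl

theorem eq_cen_add (x : Tor M) (j : Fin 2) :
    x j = cen D c x j + ((((x j).val % D : ℕ) - (c : ℤ) : ℤ) : ZMod M) := by
  have h := Nat.div_add_mod' (x j).val D
  conv_lhs => rw [← ZMod.natCast_zmod_val (x j), ← h]
  simp only [cen, Int.cast_sub, Int.cast_natCast, Nat.cast_add]
  ring

theorem d1_cen_le {k : ℕ} (hc : c ≤ k) (hk : D ≤ c + k) (hD : 0 < D) (x : Tor M) :
    d1 x (cen D c x) ≤ 2 * k := by
  have h : ∀ j, (off (cen D c x) x j).natAbs ≤ k := fun j =>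
    (natAbs_off_le _ _ j (eq_cen_add x j)).trans (by
      have := Nat.mod_lt (x j).val hD
      omega)
  have h0 := h 0
  have h1 := h 1
  rw [d1, n1_eq]; omega

/-- sites near a centre -/
theorem val_near (hD : D ∣ M) (hc : c < D) {x y : Tor M} (hy : cen D c y = y) (j : Fin 2)
    (h1 : (off y x j).natAbs ≤ c) (h2 : c + (off y x j).natAbs < D) :
    (x j).val / D = (y j).val / D ∧ (((x j).val % D : ℕ) : ℤ) = c + off y x j := by
  have e := val_cen hD hc y j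
  rw [hy] at e
  have hlt := grid_lt hD (ZMod.val_lt (y j)) h2
  have hv := val_shift y (off y x) j (by omega) (by omega)
  rw [shift_off] at hv
  obtain ⟨s, hs⟩ : ∃ s : ℕ, (s : ℤ) = c + off y x j := ⟨(c + off y x j).toNat, by omega⟩
  have hx : (x j).val = s + (y j).val / D * D := by omega
  have hsD : s < D := by omega
  rw [hx, Nat.add_mul_div_right _ _ (by omega), Nat.div_eq_of_lt hsD, zero_add,
    Nat.add_mul_mod_self_right, Nat.mod_eq_of_lt hsD]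
  exact ⟨rfl, hs⟩

theorem cen_near (hD : D ∣ M) (hc : c < D) {x y : Tor M} (hy : cen D c y = y)
    (h1 : d1 x y ≤ c) (h2 : c + d1 x y < D) : cen D c x = y := by
  funext j
  have := natAbs_le_n1 (off y x) j
  rw [d1] at h1 h2
  rw [cen, (val_near hD hc hy j (by omega) (by omega)).1]
  exact congrFun hy j

end Grid

namespace Geo

variable (g : Geo)

theorem c₁_eq (x : Tor g.M) : g.c₁ x = cen (2 * g.a) g.a x := rfl
theorem c₂_eq (x : Tor g.M) : g.c₂ x = cen (4 * g.b) g.b x := rfl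

theorem eight_le_a : 8 ≤ g.a := by have := g.le₁; omega
theorem eight_le_b : 8 ≤ g.b := by have := g.le₂; omega
theorem a_le_b : g.a ≤ g.b := Nat.le_of_dvd (by have := g.eight_le_b; omega) g.dvd₁
theorem four_b_le : 4 * g.b ≤ g.M := Nat.le_of_dvd (NeZero.pos _) g.dvd₂
theorem three_le_M : 3 ≤ g.M := by have := g.four_b_le; have := g.eight_le_b; omega
theorem tile_dvd_half : 2 * g.a ∣ 2 * g.b := Nat.mul_dvd_mul_left 2 g.dvd₁
theorem tile_dvd_cell : 2 * g.a ∣ 4 * g.b := g.tile_dvd_half.trans ⟨2, by ring⟩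
theorem tile_dvd : 2 * g.a ∣ g.M := g.tile_dvd_cell.trans g.dvd₂
theorem a_lt : g.a < 2 * g.a := by have := g.eight_le_a; omega
theorem b_lt : g.b < 4 * g.b := by have := g.eight_le_b; omega

theorem c₁_c₁ (x : Tor g.M) : g.c₁ (g.c₁ x) = g.c₁ x := cen_cen g.tile_dvd g.a_lt x
theorem c₂_c₂ (x : Tor g.M) : g.c₂ (g.c₂ x) = g.c₂ x := cen_cen g.dvd₂ g.b_lt x

theorem d1_c₁_le (x : Tor g.M) : d1 x (g.c₁ x) ≤ 2 * g.a :=
  d1_cen_le le_rfl (by omega) (by have := g.a_lt; omega) x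

theorem d1_c₂_le (x : Tor g.M) : d1 x (g.c₂ x) ≤ 6 * g.b := by
  have := d1_cen_le (D := 4 * g.b) (c := g.b) (k := 3 * g.b) (by omega) (by omega)
    (by have := g.b_lt; omega) x
  rw [c₂_eq]; omega

theorem hole_iff (x : Tor g.M) :
    g.hole x ↔ ∀ j, (x j).val / (2 * g.a) % (2 * (g.b / g.a)) < g.b / g.a := by
  obtain ⟨k, hk⟩ := g.dvd₁
  have ha := g.eight_le_a
  have e : g.b / g.a = k := by rw [hk, Nat.mul_div_cancel_left _ (by omega)]
  rw [e]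
  refine forall_congr' fun j => ?_
  rw [← Nat.mod_mul_right_div_self, Nat.div_lt_iff_lt_mul (by omega), hk,
    show 2 * g.a * (2 * k) = 4 * (g.a * k) by ring, show k * (2 * g.a) = 2 * (g.a * k) by ring]

theorem hole_c₁ (x : Tor g.M) : g.hole (g.c₁ x) ↔ g.hole x := by
  simp only [hole_iff, c₁_eq, div_cen g.tile_dvd g.a_lt]

variable {g}

/-- the `a`-neighbourhood of a class-1 centre lies in its tile -/
theorem ctr₁.near {x y : Tor g.M} (hy : g.ctr₁ y) (h : d1 x y < g.a) :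
    g.c₁ x = y ∧ ¬g.hole x := by
  have := cen_near g.tile_dvd g.a_lt hy.2 h.le (by omega)
  exact ⟨this, by rw [← hole_c₁, c₁_eq, this]; exact hy.1⟩

/-- the `b`-neighbourhood of a class-2 centre lies in its hole -/
theorem ctr₂.near {x y : Tor g.M} (hy : g.ctr₂ y) (h : d1 x y < g.b) :
    g.c₂ x = y ∧ g.hole x := by
  refine ⟨cen_near g.dvd₂ g.b_lt hy h.le (by omega), fun j => ?_⟩
  have := natAbs_le_n1 (off y x) j
  rw [d1] at h
  have := (val_near g.dvd₂ g.b_lt (x := x) hy j (by omega) (by omega)).2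
  omega

theorem ctr₁_c₁ {x : Tor g.M} (hx : ¬g.hole x) : g.ctr₁ (g.c₁ x) :=
  ⟨by rwa [hole_c₁], g.c₁_c₁ x⟩

theorem ctr₂_c₂ (x : Tor g.M) : g.ctr₂ (g.c₂ x) := g.c₂_c₂ x

theorem blk₂.hole {x : Tor g.M} (hx : g.blk₂ x) : g.hole x :=
  ((ctr₂_c₂ x).near (by have := g.le₂; unfold blk₂ at hx; omega)).2

theorem blk₁.not_blk₂ {x : Tor g.M} (hx : g.blk₁ x) : ¬g.blk₂ x := fun h => hx.1 h.hole
theorem blk₂.not_blk₁ {x : Tor g.M} (hx : g.blk₂ x) : ¬g.blk₁ x := fun h => h.1 hx.hole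
theorem ctr₁.blk₁ {x : Tor g.M} (hx : g.ctr₁ x) : g.blk₁ x := ⟨hx.1, by rw [hx.2]; simp⟩
theorem ctr₂.blk₂ {x : Tor g.M} (hx : g.ctr₂ x) : g.blk₂ x := by
  unfold Geo.blk₂; rw [show g.c₂ x = x from hx]; simp
theorem ctr₂.not_ctr₁ {x : Tor g.M} (hx : g.ctr₂ x) : ¬g.ctr₁ x := fun h => h.1 hx.blk₂.hole
theorem ctr₁.not_ctr₂ {x : Tor g.M} (hx : g.ctr₁ x) : ¬g.ctr₂ x := fun h => h.not_ctr₁ hx
theorem plain.not_blk₁ {x : Tor g.M} (hx : g.plain x) : ¬g.blk₁ x := fun h =>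
  absurd h.2 (not_le.2 hx.2)
theorem plain.not_blk₂ {x : Tor g.M} (hx : g.plain x) : ¬g.blk₂ x := fun h => hx.1 h.hole
theorem plain.not_ctr₁ {x : Tor g.M} (hx : g.plain x) : ¬g.ctr₁ x := fun h => hx.not_blk₁ h.blk₁
theorem plain.not_ctr₂ {x : Tor g.M} (hx : g.plain x) : ¬g.ctr₂ x := fun h => hx.not_blk₂ h.blk₂

theorem plain_or (x : Tor g.M) : g.plain x ∨ g.blk₁ x ∨ g.hole x := by
  unfold plain blk₁
  by_cases h : g.hole x
  · exact Or.inr (Or.inr h)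
  · rcases le_or_gt (d1 x (g.c₁ x)) g.r₁ with h' | h'
    exacts [Or.inr (Or.inl ⟨h, h'⟩), Or.inl ⟨h, h'⟩]

theorem ctr₁.mem_ball {x y : Tor g.M} (hy : g.ctr₁ y) :
    x ∈ ball y g.r₁ ↔ g.blk₁ x ∧ g.c₁ x = y := by
  rw [I.mem_ball]
  refine ⟨fun h => ?_, fun h => h.2 ▸ h.1.2⟩
  have := hy.near (x := x) (by have := g.le₁; omega)
  exact ⟨⟨this.2, this.1.symm ▸ h⟩, this.1⟩

theorem ctr₂.mem_ball {x y : Tor g.M} (hy : g.ctr₂ y) :
    x ∈ ball y g.r₂ ↔ g.blk₂ x ∧ g.c₂ x = y := by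
  rw [I.mem_ball]
  refine ⟨fun h => ?_, fun h => h.2 ▸ h.1⟩
  have := hy.near (x := x) (by have := g.le₂; omega)
  exact ⟨by unfold Geo.blk₂; exact this.1.symm ▸ h, this.1⟩

/-- the collar of a class-1 block is plain -/
theorem ctr₁.plain {x y : Tor g.M} (hy : g.ctr₁ y) (h : g.r₁ < d1 x y) (h' : d1 x y < g.a) :
    g.plain x := ⟨(hy.near h').2, (hy.near h').1.symm ▸ h⟩

theorem ctr₁.sep {y y' : Tor g.M} (hy : g.ctr₁ y) (hy' : g.ctr₁ y') (h : d1 y' y < g.a) :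
    y' = y := hy'.2.symm.trans (hy.near h).1

theorem ctr₂.sep {y y' : Tor g.M} (hy : g.ctr₂ y) (hy' : g.ctr₂ y') (h : d1 y' y < g.b) :
    y' = y := (show g.c₂ y' = y' from hy').symm.trans (hy.near h).1

theorem ctr₂.le_d1 {x y : Tor g.M} (hy : g.ctr₂ y) (hx : ¬g.hole x) : g.b ≤ d1 x y :=
  not_lt.1 fun h => hx (hy.near h).2

/-- sites outside the holes are at distance `≥ 8 + depth` from a site of a class-2 block -/
theorem le_d1_of_not_hole (x : Tor g.M) {z : Tor g.M} (hz : ¬g.hole z) :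
    8 + g.r₂ ≤ d1 z x + d1 x (g.c₂ x) := by
  have := (ctr₂_c₂ x).le_d1 hz
  have := d1_triangle z x (g.c₂ x)
  have := g.le₂
  omega

/-- sites of another cell are far from a class-2 block -/
theorem le_d1_of_c₂_ne {x z : Tor g.M} (hz : g.c₂ z ≠ g.c₂ x) :
    8 + g.r₂ ≤ d1 z x + d1 x (g.c₂ x) := by
  have : g.b ≤ d1 z (g.c₂ x) := not_lt.1 fun h => hz ((ctr₂_c₂ x).near h).1
  have := d1_triangle z x (g.c₂ x)
  have := g.le₂
  omega

/-- sites of another tile are far from a class-1 block -/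
theorem blk₁.le_d1 {x z : Tor g.M} (hx : g.blk₁ x) (hz : g.c₁ z ≠ g.c₁ x) :
    8 + g.r₁ ≤ d1 z x + d1 x (g.c₁ x) := by
  have : g.a ≤ d1 z (g.c₁ x) := not_lt.1 fun h => hz ((ctr₁_c₁ hx.1).near h).1
  have := d1_triangle z x (g.c₁ x)
  have := g.le₁
  omega

variable (g)

theorem card_c₁_le (y : Tor g.M) : (univ.filter fun x => g.c₁ x = y).card ≤ (4 * g.a + 1) ^ 2 := by
  refine (card_le_card fun x hx => ?_).trans ((card_ball_le y (2 * g.a)).trans_eq (by ring))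
  rw [mem_ball, ← (mem_filter.1 hx).2]
  exact g.d1_c₁_le x

theorem card_c₂_le (y : Tor g.M) : (univ.filter fun x => g.c₂ x = y).card ≤ (12 * g.b + 1) ^ 2 := by
  refine (card_le_card fun x hx => ?_).trans ((card_ball_le y (6 * g.b)).trans_eq (by ring))
  rw [mem_ball, ← (mem_filter.1 hx).2]
  exact g.d1_c₂_le x

/-- corridors: the last two columns and rows of every cell are plain -/
theorem plain_of_corridor {x : Tor g.M} {j : Fin 2}
    (h : 4 * g.b ≤ (x j).val % (4 * g.b) + 2) : g.plain x := by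
  have hb := g.eight_le_b
  have ha := g.eight_le_a
  have hn : ¬g.hole x := fun h' => by have := h' j; omega
  refine ⟨hn, not_le.1 fun h' => ?_⟩
  have h1 := natAbs_le_n1 (off (g.c₁ x) x) j
  have h2 := g.le₁
  rw [d1] at h'
  have h3 := (val_near g.tile_dvd g.a_lt (x := x) (g.c₁_c₁ x) j (by omega) (by omega)).2
  have h4 : (x j).val % (4 * g.b) % (2 * g.a) = (x j).val % (2 * g.a) :=
    Nat.mod_mod_of_dvd _ g.tile_dvd_cell
  obtain ⟨k, hk⟩ := g.tile_dvd_cell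
  have h5 := Nat.mod_lt (x j).val (show 0 < 4 * g.b by omega)
  have h6 := Nat.div_add_mod ((x j).val % (4 * g.b)) (2 * g.a)
  set t := (x j).val % (4 * g.b)
  have h7 : t / (2 * g.a) < k := Nat.div_lt_of_lt_mul (hk ▸ h5)
  have h8 : 2 * g.a * (t / (2 * g.a) + 1) ≤ 2 * g.a * k := Nat.mul_le_mul_left _ h7
  rw [mul_add] at h8
  omega

/-! ### labels -/

section Lab

variable {h : ℝ} (hh : 0 < h) (B₁ B₂ : (Fin 2 → ℤ) → Site h) {g}

theorem site_blk₁ {x : Tor g.M} (hx : g.blk₁ x) :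
    (g.lab hh B₁ B₂).site x = B₁ (off (g.c₁ x) x) := if_pos hx

theorem site_blk₂ {x : Tor g.M} (hx : g.blk₂ x) :
    (g.lab hh B₁ B₂).site x = B₂ (off (g.c₂ x) x) := (if_neg hx.not_blk₁).trans (if_pos hx)

theorem site_other {x : Tor g.M} (h1 : ¬g.blk₁ x) (h2 : ¬g.blk₂ x) :
    (g.lab hh B₁ B₂).site x = Site.triv hh := (if_neg h1).trans (if_neg h2)

theorem site_ctr₁ {x : Tor g.M} (hx : g.ctr₁ x) : (g.lab hh B₁ B₂).site x = B₁ 0 := by
  rw [site_blk₁ hh B₁ B₂ hx.blk₁, hx.2, off_self]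

theorem site_ctr₂ {x : Tor g.M} (hx : g.ctr₂ x) : (g.lab hh B₁ B₂).site x = B₂ 0 := by
  rw [site_blk₂ hh B₁ B₂ hx.blk₂, show g.c₂ x = x from hx, off_self]

theorem site_ball₁ {x y : Tor g.M} (hy : g.ctr₁ y) (hx : x ∈ ball y g.r₁) :
    (g.lab hh B₁ B₂).site x = B₁ (off y x) := by
  rw [site_blk₁ hh B₁ B₂ (hy.mem_ball.1 hx).1, (hy.mem_ball.1 hx).2]

theorem site_ball₂ {x y : Tor g.M} (hy : g.ctr₂ y) (hx : x ∈ ball y g.r₂) :
    (g.lab hh B₁ B₂).site x = B₂ (off y x) := by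
  rw [site_blk₂ hh B₁ B₂ (hy.mem_ball.1 hx).1, (hy.mem_ball.1 hx).2]

theorem req_ctr₁ {x : Tor g.M} (hx : g.ctr₁ x) : (g.lab hh B₁ B₂).req x = ball x g.r₁ := if_pos hx

theorem req_ctr₂ {x : Tor g.M} (hx : g.ctr₂ x) : (g.lab hh B₁ B₂).req x = ball x g.r₂ :=
  (if_neg hx.not_ctr₁).trans (if_pos hx)

theorem req_other {x : Tor g.M} (h1 : ¬g.ctr₁ x) (h2 : ¬g.ctr₂ x) : (g.lab hh B₁ B₂).req x = ∅ :=
  (if_neg h1).trans (if_neg h2)

theorem act_plain (l : Tor g.M → Bool) {x : Tor g.M} (hx : g.plain x) :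
    (g.lab hh B₁ B₂).act l x :=
  ⟨Or.inl hx, by rw [req_other hh B₁ B₂ hx.not_ctr₁ hx.not_ctr₂]; simp⟩

theorem act_ctr₁ (l : Tor g.M → Bool) {y : Tor g.M} (hy : g.ctr₁ y) :
    (g.lab hh B₁ B₂).act l y ↔ ∀ x ∈ ball y g.r₁, l x = true := by
  rw [Lab.act, req_ctr₁ hh B₁ B₂ hy]
  exact and_iff_right (Or.inr (Or.inl hy))

theorem act_ctr₂ (l : Tor g.M → Bool) {y : Tor g.M} (hy : g.ctr₂ y) :
    (g.lab hh B₁ B₂).act l y ↔ ∀ x ∈ ball y g.r₂, l x = true := by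
  rw [Lab.act, req_ctr₂ hh B₁ B₂ hy]
  exact and_iff_right (Or.inr (Or.inr hy))

theorem act_cases {l : Tor g.M → Bool} {x : Tor g.M} (hx : (g.lab hh B₁ B₂).act l x) :
    g.plain x ∨ g.ctr₁ x ∨ g.ctr₂ x := hx.1

theorem mu_plain (μ₀ μ₁ μ₂ : Measure ℂ) {x : Tor g.M} (hx : g.plain x) : g.mu μ₀ μ₁ μ₂ x = μ₀ :=
  (if_neg hx.not_ctr₁).trans (if_neg hx.not_ctr₂)

theorem mu_ctr₁ (μ₀ μ₁ μ₂ : Measure ℂ) {x : Tor g.M} (hx : g.ctr₁ x) : g.mu μ₀ μ₁ μ₂ x = μ₁ :=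
  if_pos hx

theorem mu_ctr₂ (μ₀ μ₁ μ₂ : Measure ℂ) {x : Tor g.M} (hx : g.ctr₂ x) : g.mu μ₀ μ₁ μ₂ x = μ₂ :=
  (if_neg hx.not_ctr₁).trans (if_pos hx)

instance (μ₀ μ₁ μ₂ : Measure ℂ) [IsProbabilityMeasure μ₀] [IsProbabilityMeasure μ₁]
    [IsProbabilityMeasure μ₂] (x : Tor g.M) : IsProbabilityMeasure (g.mu μ₀ μ₁ μ₂ x) := by
  unfold mu; split_ifs <;> infer_instance

/-- **Final state** of the torus ensemble. -/
theorem ens_final (η : ℝ) :
    (g.lab hh B₁ B₂).ens η (g.mu (lift η (dens (ud h))) (lift η (dens (B₁ 0).wd))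
      (lift η (dens (B₂ 0).wd))) = Measure.pi fun _ => lift η (dens (ud h)) := by
  refine Lab.ens_final _ hh η _ fun l x hx => ?_
  rcases act_cases hh B₁ B₂ hx with h0 | h1 | h2
  · rw [mu_plain _ _ _ h0, site_other hh B₁ B₂ h0.not_blk₁ h0.not_blk₂, Site.triv_den]
  · rw [mu_ctr₁ _ _ _ h1, site_ctr₁ hh B₁ B₂ h1,
      (act_ctr₁ hh B₁ B₂ l h1).1 hx x (self_mem_ball _ _)]
    rfl
  · rw [mu_ctr₂ _ _ _ h2, site_ctr₂ hh B₁ B₂ h2,
      (act_ctr₂ hh B₁ B₂ l h2).1 hx x (self_mem_ball _ _)]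
    rfl

theorem blk_of_mem_req {x x' : Tor g.M} (hx : x' ∈ (g.lab hh B₁ B₂).req x) :
    (g.blk₁ x' ∧ g.c₁ x' = x ∧ g.ctr₁ x) ∨ (g.blk₂ x' ∧ g.c₂ x' = x ∧ g.ctr₂ x) := by
  by_cases h1 : g.ctr₁ x
  · rw [req_ctr₁ hh B₁ B₂ h1, h1.mem_ball] at hx
    exact Or.inl ⟨hx.1, hx.2, h1⟩
  by_cases h2 : g.ctr₂ x
  · rw [req_ctr₂ hh B₁ B₂ h2, h2.mem_ball] at hx
    exact Or.inr ⟨hx.1, hx.2, h2⟩
  · simp [req_other hh B₁ B₂ h1 h2] at hx

/-- the required sets of different sites are disjoint -/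
theorem req_disjoint {x y x' : Tor g.M} (hx : x' ∈ (g.lab hh B₁ B₂).req x)
    (hy : x' ∈ (g.lab hh B₁ B₂).req y) : x = y := by
  rcases blk_of_mem_req hh B₁ B₂ hx with h | h <;> rcases blk_of_mem_req hh B₁ B₂ hy with h' | h'
  · rw [← h.2.1, h'.2.1]
  · exact absurd h'.1 h.1.not_blk₂
  · exact absurd h.1 h'.1.not_blk₂
  · rw [← h.2.1, h'.2.1]

theorem self_mem_req {x x' : Tor g.M} (hx : x' ∈ (g.lab hh B₁ B₂).req x) :
    x ∈ (g.lab hh B₁ B₂).req x := by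
  rcases blk_of_mem_req hh B₁ B₂ hx with h | h
  · rw [req_ctr₁ hh B₁ B₂ h.2.2]; exact self_mem_ball _ _
  · rw [req_ctr₂ hh B₁ B₂ h.2.2]; exact self_mem_ball _ _

/-- the law outside the block of `y` does not see the labels of that block -/
theorem law_congr (η : ℝ) (μ : Tor g.M → Measure ℂ) {y x : Tor g.M} {l l' : Tor g.M → Bool}
    (hl : ∀ z, z ∉ (g.lab hh B₁ B₂).req y → l z = l' z) (hx : x ∉ (g.lab hh B₁ B₂).req y) :
    (g.lab hh B₁ B₂).law η μ l x = (g.lab hh B₁ B₂).law η μ l' x := by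
  have : (g.lab hh B₁ B₂).act l x ↔ (g.lab hh B₁ B₂).act l' x := by
    refine and_congr_right fun _ => forall₂_congr fun z hz => ?_
    rw [hl z fun hz' => hx ?_]
    rw [← req_disjoint hh B₁ B₂ hz hz']
    exact self_mem_req hh B₁ B₂ hz
  unfold Lab.law
  rw [hl x hx, propext this]

theorem law_force (η : ℝ) (μ : Tor g.M → Measure ℂ) {y x : Tor g.M} (l : Tor g.M → Bool)
    (hx : x ∉ (g.lab hh B₁ B₂).req y) :
    (g.lab hh B₁ B₂).law η μ (Lab.force ((g.lab hh B₁ B₂).req y) l) x =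
      (g.lab hh B₁ B₂).law η μ l x :=
  law_congr hh B₁ B₂ η μ (fun _ hz => Lab.force_of_notMem l hz) hx

/-- inside an active block every site other than the centre has its `win` law -/
theorem law_win (η : ℝ) (μ : Tor g.M → Measure ℂ) {y x : Tor g.M} {l : Tor g.M → Bool}
    (hy : (g.lab hh B₁ B₂).act l y) (hx : x ∈ (g.lab hh B₁ B₂).req y) (hxy : x ≠ y) :
    (g.lab hh B₁ B₂).law η μ l x = lift η (dens ((g.lab hh B₁ B₂).site x).wd) := by
  rw [Lab.law_of_not_act, hy.2 x hx]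
  · rfl
  intro hx'
  have hb := blk_of_mem_req hh B₁ B₂ hx
  rcases act_cases hh B₁ B₂ hx' with h0 | h1 | h2
  · exact hb.elim (fun h => h0.not_blk₁ h.1) fun h => h0.not_blk₂ h.1
  · exact hxy (req_disjoint hh B₁ B₂ (by rw [req_ctr₁ hh B₁ B₂ h1]; exact self_mem_ball _ _) hx)
  · exact hxy (req_disjoint hh B₁ B₂ (by rw [req_ctr₂ hh B₁ B₂ h2]; exact self_mem_ball _ _) hx)

end Lab

end Geo

end Crest.Agent.N334.I
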