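import Crest.Agent.N334.I.Mix
import Crest.Agent.N334.G.Law

/-!
# Row 334, S0519 (helper21): the uniform law as a mixture of the smooth laws `G.law`
-/

set_option autoImplicit false

open MeasureTheory Finset Filter Topology
open scoped ENNReal

namespace Crest.Agent.N334.I

open Crest.Agent.N334.G (lawD law)

/-- A finite family of smooth laws whose mixture `uhat` is `ε`-close to the uniform law on
`[-h, h]`; every law touches one of the points `-h + 2 j h / k`. -/
structure Types (h ε : ℝ) (k : ℕ) where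
  T : Type
  [fin : Fintype T]
  [dec : DecidableEq T]
  p : T → ℝ
  a0 : T → ℝ
  b : T → ℝ
  p_nonneg : ∀ t, 0 ≤ p t
  p_sum : ∑ t, p t = 1
  b_pos : ∀ t, 0 < b t
  b_le : ∀ t, b t ≤ h / k
  supp : ∀ t, |a0 t| + b t ≤ h
  edge : ∀ t, ∃ j : ℕ, j ≤ k ∧ |a0 t - (-h + 2 * j * (h / k))| ≤ b t
  tail : ∀ s, 0 ≤ s → ∑ t ∈ univ.filter (fun t => b t < s), p t ≤ 2 * s / (h / k)
  le_two : ∀ a, ∑ t, p t * lawD (a0 t) (b t) a ≤ 2 * ud h a
  rem : ∃ r : Measure ℝ, r Set.univ ≤ ENNReal.ofReal ε ∧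
    dens (ud h) ≤ ∑ t, ENNReal.ofReal (p t) • law (a0 t) (b t) + r

attribute [instance] Types.fin Types.dec

/-- the mixture -/
noncomputable def Types.uhat {h ε : ℝ} {k : ℕ} (Y : Types h ε k) : Measure ℝ :=
  ∑ t, ENNReal.ofReal (Y.p t) • law (Y.a0 t) (Y.b t)

namespace Ty

/-- primitive of `x (2 - x)²` -/
noncomputable def GG (x : ℝ) : ℝ := 2 * x ^ 2 - 4 / 3 * x ^ 3 + x ^ 4 / 4

/-- the bump -/
noncomputable def ph (t : ℝ) : ℝ := max (1 - t ^ 2) 0 ^ 2

theorem ph_nonneg (t : ℝ) : 0 ≤ ph t := sq_nonneg _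

theorem ph_neg (t : ℝ) : ph (-t) = ph t := by simp [ph]

theorem ph_zero {t : ℝ} (h : 1 ≤ |t|) : ph t = 0 := by
  have : 1 ≤ t ^ 2 := by rw [← sq_abs]; nlinarith
  rw [ph, max_eq_right (by linarith)]; simp

theorem ph_eq {t : ℝ} (h : |t| ≤ 1) : ph t = (1 - t ^ 2) ^ 2 := by
  have : t ^ 2 ≤ 1 := by rw [← sq_abs]; nlinarith [abs_nonneg t]
  rw [ph, max_eq_left (by linarith)]

theorem GG_sub {x y : ℝ} (h0 : 0 ≤ y) (h1 : y ≤ x) (h2 : x ≤ 2) :
    (x - y) * y * (2 - x) ^ 2 ≤ GG x - GG y := by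
  obtain ⟨d, rfl⟩ : ∃ d, x = y + d := ⟨x - y, by ring⟩
  have hd : 0 ≤ d := by linarith
  obtain ⟨e, he⟩ : ∃ e, e = 2 - (y + d) := ⟨_, rfl⟩
  have he0 : 0 ≤ e := by linarith
  have hy : y = 2 - d - e := by linarith
  have : GG (y + d) - GG y - (y + d - y) * y * (2 - (y + d)) ^ 2 =
      d ^ 2 * (y * e + y * d / 3 + e ^ 2 / 2 + e * d / 3 + d ^ 2 / 12) := by
    rw [hy]; unfold GG; ring
  have h3 : 0 ≤ d ^ 2 * (y * e + y * d / 3 + e ^ 2 / 2 + e * d / 3 + d ^ 2 / 12) := by positivity
  linarith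

theorem GG_step {x n : ℝ} (hx : 0 ≤ x) (hn : 0 < n) :
    n / (n + 1) ^ 2 * ph (x / n - 1) ≤ GG (min (x / n) 2) - GG (min (x / (n + 1)) 2) := by
  have hy : x / (n + 1) ≤ x / n := div_le_div_of_nonneg_left hx hn (by linarith)
  have hy0 : 0 ≤ x / (n + 1) := by positivity
  rcases le_total (x / n) 2 with h | h
  · rw [min_eq_left h, min_eq_left (hy.trans h), ph_eq (abs_le.2 ⟨by linarith, by linarith⟩)]
    refine le_trans (le_of_eq ?_) (GG_sub hy0 hy h)
    field_simp
    ring
  · rw [ph_zero (by rw [abs_of_nonneg (by linarith)]; linarith), mul_zero, min_eq_right h]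
    have := GG_sub (le_min hy0 two_pos.le) (min_le_right (x / (n + 1)) 2) le_rfl
    simpa using this

theorem GG_le {x : ℝ} (h0 : 0 ≤ x) (h2 : x ≤ 2) : GG x ≤ 4 / 3 := by
  have := GG_sub h0 h2 le_rfl
  have e : GG 2 = 4 / 3 := by unfold GG; norm_num
  simp only [sub_self] at this
  linarith [show (2 - x) * x * (0 : ℝ) ^ 2 = 0 by simp]

/-- telescoping: the family touching one end -/
theorem sum_le (N : ℕ) {x : ℝ} (h0 : 0 ≤ x) (h2 : x ≤ 2) :
    ∑ i ∈ range N, ((i : ℝ) + 1) / (i + 1 + 1) ^ 2 * ph (x * (N + 1) / (i + 1) - 1) ≤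
      4 / 3 - GG x := by
  have h := Finset.sum_range_sub' (fun i : ℕ => GG (min (x * (N + 1) / (i + 1)) 2)) N
  have h1 : x * (N + 1) / ((N : ℝ) + 1) = x := by field_simp
  rw [h1, min_eq_left h2] at h
  have h3 := GG_le (le_min (show 0 ≤ x * (N + 1) / (((0 : ℕ) : ℝ) + 1) by positivity) two_pos.le)
    (min_le_right _ _)
  refine le_trans (Finset.sum_le_sum fun i _ => ?_) (h.le.trans (by linarith))
  push_cast
  exact GG_step (by positivity) (by positivity)

/-- types on one piece -/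
abbrev T1 (N : ℕ) : Type := Option (Bool × Fin N)

/-- relative half width -/
noncomputable def be (N : ℕ) : T1 N → ℝ
  | none => 1
  | some q => ((q.2 : ℕ) + 1) / (N + 1)

/-- relative centre -/
noncomputable def ce (N : ℕ) : T1 N → ℝ
  | none => 0
  | some q => if q.1 then 1 - be N (some q) else -(1 - be N (some q))

/-- raw weight -/
noncomputable def rw (N : ℕ) : T1 N → ℝ
  | none => 1 / 5
  | some q => 2 / 5 / (N + 1) * ((((q.2 : ℕ) : ℝ) + 1) / ((q.2 : ℕ) + 1 + 1)) ^ 2

theorem be_pos (N : ℕ) (t : T1 N) : 0 < be N t := by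
  cases t <;> simp only [be] <;> positivity

theorem be_le (N : ℕ) (t : T1 N) : be N t ≤ 1 := by
  rcases t with _ | q
  · exact le_rfl
  · have : ((q.2 : ℕ) : ℝ) ≤ N := by exact_mod_cast q.2.2.le
    simp only [be]
    rw [div_le_one (by positivity)]; linarith

theorem abs_ce (N : ℕ) (t : T1 N) : |ce N t| = 1 - be N t := by
  rcases t with _ | q
  · simp [ce, be]
  · have := be_le N (some q)
    simp only [ce]
    split_ifs
    · exact abs_of_nonneg (by linarith)
    · rw [abs_neg]; exact abs_of_nonneg (by linarith)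

theorem rw_nonneg (N : ℕ) (t : T1 N) : 0 ≤ rw N t := by
  cases t <;> simp only [rw] <;> positivity

theorem rw_le (N : ℕ) (q : Bool × Fin N) : rw N (some q) ≤ 2 / 5 / (N + 1) := by
  simp only [rw]
  refine mul_le_of_le_one_right (by positivity) (pow_le_one₀ (by positivity) ?_)
  rw [div_le_one (by positivity)]; linarith

theorem piece_le (N : ℕ) {y : ℝ} (hy : |y| ≤ 1) :
    ∑ t : T1 N, rw N t * (15 / (16 * be N t) * ph ((y - ce N t) / be N t)) ≤ 1 / 2 := by
  have h1 := abs_le.1 hy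
  have e : ∀ (s : Bool) (i : Fin N), rw N (some (s, i)) * (15 / (16 * be N (some (s, i))) *
      ph ((y - ce N (some (s, i))) / be N (some (s, i)))) = 3 / 8 * ((((i : ℕ) : ℝ) + 1) /
        ((i : ℕ) + 1 + 1) ^ 2 * ph ((if s then 1 - y else 1 + y) * (N + 1) / ((i : ℕ) + 1) - 1)) := by
    intro s i
    have : ph ((y - ce N (some (s, i))) / be N (some (s, i))) =
        ph ((if s then 1 - y else 1 + y) * (N + 1) / ((i : ℕ) + 1) - 1) := by
      cases s
      · congr 1; simp only [ce, be, Bool.false_eq_true, if_false]; field_simp; ring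
      · rw [← ph_neg]; congr 1; simp only [ce, be, if_true]; field_simp; ring
    rw [this]
    simp only [rw, be]
    field_simp
    ring
  rw [Fintype.sum_option, Fintype.sum_prod_type, Fintype.sum_bool]
  simp only [e, ← Finset.mul_sum, if_true, Bool.false_eq_true, if_false]
  rw [Fin.sum_univ_eq_sum_range (fun i : ℕ => ((i : ℝ) + 1) / (i + 1 + 1) ^ 2 *
      ph ((1 - y) * (N + 1) / (i + 1) - 1)),
    Fin.sum_univ_eq_sum_range (fun i : ℕ => ((i : ℝ) + 1) / (i + 1 + 1) ^ 2 *
      ph ((1 + y) * (N + 1) / (i + 1) - 1))]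
  have a1 := sum_le N (x := 1 - y) (by linarith) (by linarith)
  have a2 := sum_le N (x := 1 + y) (by linarith) (by linarith)
  simp only [rw, be, ce, sub_zero, div_one, mul_one, ph_eq hy]
  have : GG (1 - y) + GG (1 + y) = 11 / 6 - y ^ 2 + y ^ 4 / 2 := by unfold GG; ring
  nlinarith

theorem piece_zero (N : ℕ) (t : T1 N) {y : ℝ} (hy : 1 ≤ |y|) : ph ((y - ce N t) / be N t) = 0 := by
  refine ph_zero ?_
  rw [abs_div, abs_of_pos (be_pos N t), le_div_iff₀ (be_pos N t)]
  have := abs_sub_abs_le_abs_sub y (ce N t)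
  rw [abs_ce] at this
  linarith

/-- total raw mass -/
noncomputable def ms (N : ℕ) : ℝ := ∑ t : T1 N, rw N t

theorem ms_eq (N : ℕ) : ms N = 1 / 5 + 4 / 5 * (((N + 1 : ℕ) : ℝ)⁻¹ *
    ∑ i ∈ range (N + 1), ((i : ℝ) / (i + 1)) ^ 2) := by
  rw [ms, Fintype.sum_option, Fintype.sum_prod_type, Fintype.sum_bool, Finset.sum_range_succ']
  simp only [rw, ← Finset.mul_sum]
  rw [Fin.sum_univ_eq_sum_range (fun i : ℕ => (((i : ℝ) + 1) / (i + 1 + 1)) ^ 2)]
  push_cast
  simp only [zero_div, ne_eq, OfNat.ofNat_ne_zero, not_false_eq_true, zero_pow, add_zero]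
  ring

theorem tendsto_ms : Tendsto ms atTop (𝓝 1) := by
  have h1 : Tendsto (fun i : ℕ => ((i : ℝ) / (i + 1)) ^ 2) atTop (𝓝 1) := by
    simpa using (tendsto_natCast_div_add_atTop (1 : ℝ)).pow 2
  have h2 := ((h1.cesaro.comp (tendsto_add_atTop_nat 1)).const_mul (4 / 5)).const_add (1 / 5)
  rw [show (1 / 5 + 4 / 5 * 1 : ℝ) = 1 by norm_num] at h2
  exact h2.congr fun N => (ms_eq N).symm

theorem ms_le (N : ℕ) : ms N ≤ 1 := by
  rw [ms, Fintype.sum_option]
  have h := Finset.sum_le_card_nsmul univ (fun q : Bool × Fin N => rw N (some q)) _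
    fun q _ => rw_le N q
  simp only [card_univ, Fintype.card_prod, Fintype.card_bool, Fintype.card_fin, nsmul_eq_mul] at h
  have h2 : ((2 * N : ℕ) : ℝ) * (2 / 5 / (N + 1)) ≤ 4 / 5 := by
    push_cast
    rw [mul_div_assoc', div_le_iff₀ (by positivity)]
    linarith
  simp only [rw] at h ⊢
  linarith

theorem tail_le (N : ℕ) {s : ℝ} (hs : 0 ≤ s) (hs1 : s ≤ 1) :
    ∑ t : T1 N, (if be N t < s then rw N t else 0) ≤ 4 / 5 * s := by
  rw [Fintype.sum_option, if_neg (show ¬be N none < s from not_lt.2 hs1), zero_add,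
    Fintype.sum_prod_type, Fintype.sum_bool]
  have key : ∀ c : Bool, ∑ i : Fin N, (if be N (some (c, i)) < s then rw N (some (c, i)) else 0) ≤
      2 / 5 * s := by
    intro c
    rw [← Finset.sum_filter]
    refine (Finset.sum_le_card_nsmul _ _ _ fun i _ => rw_le N (c, i)).trans ?_
    have h1 : (univ.filter fun i : Fin N => be N (some (c, i)) < s).card ≤ ⌊s * (N + 1)⌋₊ := by
      rw [← card_range ⌊s * (N + 1)⌋₊]
      refine Finset.card_le_card_of_injOn Fin.val (fun i hi => ?_) Fin.val_injective.injOn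
      have := (mem_filter.1 (mem_coe.1 hi)).2
      simp only [be] at this
      rw [div_lt_iff₀ (by positivity)] at this
      rw [mem_coe, mem_range, Nat.lt_iff_add_one_le]
      exact Nat.le_floor (by push_cast; exact this.le)
    have h2 : (⌊s * (N + 1)⌋₊ : ℝ) ≤ s * (N + 1) := Nat.floor_le (by positivity)
    have h3 : ((univ.filter fun i : Fin N => be N (some (c, i)) < s).card : ℝ) ≤ s * (N + 1) :=
      le_trans (by exact_mod_cast h1) h2
    rw [nsmul_eq_mul]
    calc _ ≤ s * (N + 1) * (2 / 5 / (N + 1)) := by gcongr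
      _ = _ := by field_simp
  have := key true
  have := key false
  linarith

theorem count_le {h : ℝ} (hh : 0 < h) {k : ℕ} (hk : 0 < k) (a : ℝ) :
    ∑ j : Fin k, (if |(a - (-h + (2 * (j : ℕ) + 1) * (h / k))) / (h / k)| < 1 then 1 / (2 * h)
      else 0) ≤ ud h a := by
  have hk' : (0 : ℝ) < k := by exact_mod_cast hk
  have h0 : 0 < h / k := by positivity
  have hkk : k * (h / k) = h := by field_simp
  have e : ∀ j : Fin k, |(a - (-h + (2 * (j : ℕ) + 1) * (h / k))) / (h / k)| < 1 →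
      2 * (j : ℕ) * (h / k) < a + h ∧ a + h < 2 * ((j : ℕ) + 1) * (h / k) := fun j hj => by
    rw [abs_div, abs_of_pos h0, div_lt_one h0, abs_lt] at hj
    constructor <;> linarith [hj.1, hj.2]
  rw [← Finset.sum_filter]
  set S := univ.filter fun j : Fin k =>
    |(a - (-h + (2 * (j : ℕ) + 1) * (h / k))) / (h / k)| < 1 with hS
  rcases S.eq_empty_or_nonempty with h1 | ⟨j, hj⟩
  · rw [h1, sum_empty]; exact ud_nonneg hh a
  have hj' := e j (mem_filter.1 hj).2
  have : S = {j} := by
    refine Finset.eq_singleton_iff_unique_mem.2 ⟨hj, fun i hi => ?_⟩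
    have hi' := e i (mem_filter.1 hi).2
    have a1 : ((i : ℕ) : ℝ) < (j : ℕ) + 1 := by nlinarith [hi'.1, hj'.2]
    have a2 : ((j : ℕ) : ℝ) < (i : ℕ) + 1 := by nlinarith [hj'.1, hi'.2]
    have b1 : (i : ℕ) < j + 1 := by exact_mod_cast a1
    have b2 : (j : ℕ) < i + 1 := by exact_mod_cast a2
    exact Fin.ext (by omega)
  rw [this, sum_singleton, ud, if_pos]
  have hjk : ((j : ℕ) : ℝ) + 1 ≤ k := by exact_mod_cast j.2
  have hj0 : (0 : ℝ) ≤ (j : ℕ) := Nat.cast_nonneg _
  rw [abs_le]
  constructor <;> nlinarith [hj'.1, hj'.2]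

end Ty

theorem dens_sum {ι : Type*} (s : Finset ι) {f : ι → ℝ → ℝ} (hf : ∀ i, Measurable (f i))
    (hf0 : ∀ i a, 0 ≤ f i a) {p : ι → ℝ} (hp : ∀ i, 0 ≤ p i) :
    dens (fun a => ∑ i ∈ s, p i * f i a) = ∑ i ∈ s, ENNReal.ofReal (p i) • dens (f i) := by
  classical
  induction s using Finset.induction_on with
  | empty => simp [dens]
  | insert i s hi ih =>
    simp only [Finset.sum_insert hi]
    rw [dens_add ((hf i).const_mul _) (fun a => mul_nonneg (hp i) (hf0 i a))
      fun a => Finset.sum_nonneg fun j _ => mul_nonneg (hp j) (hf0 j a), dens_smul (hf i) (hp i), ih]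

open Ty in
theorem exists_types {h ε : ℝ} (hh : 0 < h) (hε : 0 < ε) {k : ℕ} (hk : 0 < k) :
    Nonempty (Types h ε k) := by
  have hk' : (0 : ℝ) < k := by exact_mod_cast hk
  have h0 : 0 < h / k := by positivity
  have hkk : k * (h / k) = h := by field_simp
  obtain ⟨N, hN1, hN2⟩ : ∃ N, 1 / 2 < ms N ∧ 1 - ε < ms N :=
    ((tendsto_ms.eventually (lt_mem_nhds (by norm_num))).and
      (tendsto_ms.eventually (lt_mem_nhds (by linarith)))).exists
  have hm : 0 < ms N := by linarith
  set a0 : Fin k × T1 N → ℝ := fun t => -h + (2 * (t.1 : ℕ) + 1) * (h / k) + ce N t.2 * (h / k)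
  set b : Fin k × T1 N → ℝ := fun t => be N t.2 * (h / k)
  have hb : ∀ t, 0 < b t := fun t => mul_pos (be_pos N t.2) h0
  set q : Fin k × T1 N → ℝ := fun t => rw N t.2 / k
  have hq : ∀ t, 0 ≤ q t := fun t => div_nonneg (rw_nonneg N t.2) hk'.le
  have hqs : ∑ t, q t = ms N := by
    rw [Fintype.sum_prod_type]
    simp only [q, ← Finset.sum_div, sum_const, card_univ, Fintype.card_fin, nsmul_eq_mul]
    rw [← ms]; field_simp
  have hraw : ∀ a, ∑ t, q t * lawD (a0 t) (b t) a ≤ ud h a := by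
    intro a
    refine le_trans ?_ (count_le hh hk a)
    rw [Fintype.sum_prod_type]
    refine Finset.sum_le_sum fun j _ => ?_
    set y := (a - (-h + (2 * (j : ℕ) + 1) * (h / k))) / (h / k) with hy
    have e : ∀ t : T1 N, q (j, t) * lawD (a0 (j, t)) (b (j, t)) a =
        rw N t * (15 / (16 * be N t) * ph ((y - ce N t) / be N t)) / h := by
      intro t
      have := be_pos N t
      have e1 : (a - a0 (j, t)) / b (j, t) = (y - ce N t) / be N t := by
        simp only [a0, b, hy]; field_simp; ring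
      simp only [lawD, e1, ph, q, b]
      field_simp
    simp only [e, ← Finset.sum_div]
    split_ifs with h1
    · rw [div_le_div_iff₀ hh (by positivity)]
      nlinarith [piece_le N h1.le]
    · simp [piece_zero N _ (not_lt.1 h1)]
  have hD0 : ∀ t a, 0 ≤ lawD (a0 t) (b t) a := fun t a => G.lawD_nonneg _ (hb t) a
  have hDm : ∀ t, Measurable (lawD (a0 t) (b t)) := fun t => (G.continuous_lawD _ _).measurable
  have hs0 : ∀ a, 0 ≤ ∑ t, q t * lawD (a0 t) (b t) a := fun a =>
    Finset.sum_nonneg fun t _ => mul_nonneg (hq t) (hD0 t a)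
  have hsm : Measurable fun a => ∑ t, q t * lawD (a0 t) (b t) a :=
    Finset.measurable_sum _ fun t _ => (hDm t).const_mul _
  have hps : ∀ a, ∑ t, q t / ms N * lawD (a0 t) (b t) a =
      (∑ t, q t * lawD (a0 t) (b t) a) / ms N := fun a => by
    rw [Finset.sum_div]; exact Finset.sum_congr rfl fun t _ => by ring
  refine ⟨{
    T := Fin k × T1 N
    p := fun t => q t / ms N
    a0 := a0
    b := b
    p_nonneg := fun t => div_nonneg (hq t) hm.le
    p_sum := by rw [← Finset.sum_div, hqs, div_self hm.ne']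
    b_pos := hb
    b_le := fun t => mul_le_of_le_one_left h0.le (be_le N t.2)
    supp := fun t => ?_
    edge := fun t => ?_
    tail := fun s hs => ?_
    le_two := fun a => ?_
    rem := ⟨dens fun a => ud h a - ∑ t, q t * lawD (a0 t) (b t) a, ?_, ?_⟩ }⟩
  · have h1 := abs_le.1 (abs_ce N t.2).le
    have hjk : ((t.1 : ℕ) : ℝ) + 1 ≤ k := by exact_mod_cast t.1.2
    have hj0 : (0 : ℝ) ≤ (t.1 : ℕ) := Nat.cast_nonneg _
    rw [← le_sub_iff_add_le, abs_le]
    simp only [a0, b]
    constructor <;> nlinarith [h1.1, h1.2]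
  · have h1 := abs_ce N t.2
    have h2 := (be_pos N t.2).le
    rcases le_total 0 (ce N t.2) with hc | hc
    · refine ⟨t.1 + 1, t.1.2, le_of_eq ?_⟩
      rw [abs_of_nonneg hc] at h1
      simp only [a0, b, h1]
      push_cast
      rw [← abs_neg, ← abs_of_nonneg (mul_nonneg h2 h0.le)]
      congr 1; ring
    · refine ⟨t.1, t.1.2.le, le_of_eq ?_⟩
      rw [abs_of_nonpos hc, neg_eq_iff_eq_neg] at h1
      simp only [a0, b, h1]
      rw [← abs_of_nonneg (mul_nonneg h2 h0.le)]
      congr 1; ring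
  · rcases le_total s (h / k) with h1 | h1
    · have h2 := tail_le N (div_nonneg hs h0.le) ((div_le_one h0).2 h1)
      rw [Finset.sum_filter, Fintype.sum_prod_type]
      have e : ∀ (j : Fin k) (t : T1 N), (if b (j, t) < s then q (j, t) / ms N else 0) =
          (if be N t < s / (h / k) then rw N t else 0) / (k * ms N) := by
        intro j t
        simp only [b, q, lt_div_iff₀ h0]
        split_ifs
        · rw [div_div]
        · rw [zero_div]
      simp only [e, ← Finset.sum_div, sum_const, card_univ, Fintype.card_fin, nsmul_eq_mul]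
      rw [mul_div_mul_left _ _ hk'.ne', div_le_iff₀ hm, mul_div_assoc]
      nlinarith [div_nonneg hs h0.le]
    · refine (Finset.sum_le_univ_sum_of_nonneg fun t => div_nonneg (hq t) hm.le).trans ?_
      rw [← Finset.sum_div, hqs, div_self hm.ne', le_div_iff₀ h0]
      linarith
  · rw [hps, div_le_iff₀ hm]
    nlinarith [hraw a, ud_nonneg hh a]
  · have h1 := dens_add hsm hs0 fun a => sub_nonneg.2 (hraw a)
    simp only [add_sub_cancel] at h1
    have h2 := congrArg (fun m : Measure ℝ => m Set.univ) h1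
    have := isProb_unif hh
    have h3 : ∀ t, dens (lawD (a0 t) (b t)) Set.univ = 1 := fun t =>
      (G.law_prob (a0 t) (hb t)).measure_univ
    simp only [measure_univ, Measure.add_apply, dens_sum univ hDm hD0 hq, Measure.finsetSum_apply,
      Measure.smul_apply, h3, smul_eq_mul, mul_one] at h2
    rw [← ENNReal.ofReal_sum_of_nonneg fun t _ => hq t, hqs] at h2
    refine (ENNReal.add_le_add_iff_left (ENNReal.ofReal_ne_top (r := ms N))).1 ?_
    rw [← h2, ← ENNReal.ofReal_add hm.le hε.le]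
    exact ENNReal.one_le_ofReal.2 (by linarith)
  · have h1 := dens_add hsm hs0 fun a => sub_nonneg.2 (hraw a)
    simp only [add_sub_cancel] at h1
    rw [show dens (ud h) = dens fun a => ud h a from rfl, h1]
    refine add_le_add ?_ le_rfl
    refine le_trans (dens_mono fun a => ?_)
      (dens_sum univ hDm hD0 fun t => div_nonneg (hq t) hm.le).le
    rw [hps, le_div_iff₀ hm]
    nlinarith [hs0 a, ms_le N]

namespace Types

variable {h ε : ℝ} {k : ℕ} (Y : Types h ε k)

theorem uhat_eq : Y.uhat = dens fun a => ∑ t, Y.p t * lawD (Y.a0 t) (Y.b t) a :=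
  (dens_sum univ (fun _ => (G.continuous_lawD _ _).measurable)
    (fun t a => G.lawD_nonneg _ (Y.b_pos t) a) Y.p_nonneg).symm

theorem uhat_le : Y.uhat ≤ dens fun a => 2 * ud h a := by
  rw [uhat_eq]; exact dens_mono Y.le_two

instance : IsProbabilityMeasure Y.uhat := ⟨by
  have h3 : ∀ t, law (Y.a0 t) (Y.b t) Set.univ = 1 := fun t =>
    (G.law_prob _ (Y.b_pos t)).measure_univ
  simp only [uhat, Measure.finsetSum_apply, Measure.smul_apply, h3, smul_eq_mul, mul_one]
  rw [← ENNReal.ofReal_sum_of_nonneg fun t _ => Y.p_nonneg t, Y.p_sum, ENNReal.ofReal_one]⟩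

end Types

/-- total variation step for product laws -/
theorem lintegral_pi_le_of_tv {V X : Type*} [Fintype V] [DecidableEq V] [MeasurableSpace X]
    (μ ν : V → Measure X) [∀ x, IsProbabilityMeasure (μ x)] [∀ x, IsProbabilityMeasure (ν x)]
    {ε : ℝ≥0∞} (h : ∀ x, ∃ r : Measure X, r Set.univ ≤ ε ∧ μ x ≤ ν x + r) {F : (V → X) → ℝ≥0∞}
    (hF : Measurable F) {B : ℝ≥0∞} (hB : ∀ w, F w ≤ B) :
    ∫⁻ w, F w ∂Measure.pi μ ≤ ∫⁻ w, F w ∂Measure.pi ν + Fintype.card V * (B * ε) := by
  have key : ∀ s : Finset V, ∫⁻ w, F w ∂Measure.pi (s.piecewise μ ν) ≤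
      ∫⁻ w, F w ∂Measure.pi ν + s.card * (B * ε) := by
    intro s
    induction s using Finset.induction_on with
    | empty => simp
    | insert x s hx ih =>
      have : ∀ y, IsProbabilityMeasure (s.piecewise μ ν y) := fun y => by
        unfold Finset.piecewise; split_ifs <;> infer_instance
      obtain ⟨r, hr, hμ⟩ := h x
      rw [Finset.piecewise_insert, lintegral_pi_update _ x _ hF, card_insert_of_notMem hx]
      have h1 : ∀ w : V → X, ∫⁻ t, F (Function.update w x t) ∂μ x ≤
          ∫⁻ t, F (Function.update w x t) ∂ν x + B * ε := fun w => by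
        refine (lintegral_mono' hμ le_rfl).trans ?_
        rw [lintegral_add_measure]
        refine add_le_add le_rfl ((lintegral_mono fun t => hB _).trans ?_)
        rw [lintegral_const]
        gcongr
      refine (lintegral_mono h1).trans ?_
      rw [lintegral_add_right _ measurable_const, lintegral_const, measure_univ, mul_one,
        ← Finset.piecewise_eq_of_notMem s μ ν hx, ← lintegral_pi_resample _ x hF]
      push_cast
      rw [add_mul, one_mul, ← add_assoc]
      gcongr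
  simpa using key univ

end Crest.Agent.N334.I
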